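import Mathlib

/-!
# Row 166: resolvents of real symmetric matrices

`evec hA a k` is the `a`-th coordinate of the `k`-th eigenvector, `rfc hA f` the functional
calculus, `res A z = (A - z)⁻¹`.
-/

set_option autoImplicit false
open Matrix Finset Complex
open scoped ComplexConjugate

noncomputable section
namespace Crest.Agent.R166

variable {ι : Type*} [Fintype ι] [DecidableEq ι]

/-- complexification of a real matrix -/
def cx (A : Matrix ι ι ℝ) : Matrix ι ι ℂ := A.map (fun x : ℝ => (x : ℂ))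

/-- The resolvent `(A - z)⁻¹` of a real matrix. -/
def res (A : Matrix ι ι ℝ) (z : ℂ) : Matrix ι ι ℂ := (cx A - z • (1 : Matrix ι ι ℂ))⁻¹

/-- `a`-th coordinate of the `k`-th eigenvector -/
def evec {A : Matrix ι ι ℝ} (hA : A.IsHermitian) (a k : ι) : ℝ := hA.eigenvectorBasis k a

/-- functional calculus with complex values -/
def rfc {A : Matrix ι ι ℝ} (hA : A.IsHermitian) (f : ℝ → ℂ) : Matrix ι ι ℂ :=
  Matrix.of fun a b => ∑ k, (evec hA a k : ℂ) * f (hA.eigenvalues k) * (evec hA b k : ℂ)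

omit [Fintype ι] [DecidableEq ι] in
@[simp] theorem cx_apply (A : Matrix ι ι ℝ) (a b : ι) : cx A a b = (A a b : ℂ) := rfl

omit [Fintype ι] [DecidableEq ι] in
theorem cx_add (A B : Matrix ι ι ℝ) : cx (A + B) = cx A + cx B := by
  ext a b; simp

omit [Fintype ι] [DecidableEq ι] in
theorem cx_sub (A B : Matrix ι ι ℝ) : cx (A - B) = cx A - cx B := by
  ext a b; simp

omit [Fintype ι] [DecidableEq ι] in
theorem cx_smul (c : ℝ) (A : Matrix ι ι ℝ) : cx (c • A) = (c : ℂ) • cx A := by
  ext a b; simp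

omit [DecidableEq ι] in
theorem cx_mul (A B : Matrix ι ι ℝ) : cx (A * B) = cx A * cx B := by
  ext a b; simp [Matrix.mul_apply]

omit [Fintype ι] in
theorem cx_one : cx (1 : Matrix ι ι ℝ) = 1 := by
  ext a b; by_cases h : a = b <;> simp [Matrix.one_apply, h]

omit [Fintype ι] [DecidableEq ι] in
theorem cx_transpose (A : Matrix ι ι ℝ) : cx Aᵀ = (cx A)ᵀ := rfl

omit [Fintype ι] [DecidableEq ι] in
theorem herm_symm {A : Matrix ι ι ℝ} (hA : A.IsHermitian) (a b : ι) : A a b = A b a := by
  have := hA.apply b a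
  simpa using this

omit [Fintype ι] [DecidableEq ι] in
theorem herm_of_symm {A : Matrix ι ι ℝ} (h : ∀ a b, A a b = A b a) : A.IsHermitian := by
  ext a b
  simp [Matrix.conjTranspose_apply, h a b]

variable {A : Matrix ι ι ℝ} (hA : A.IsHermitian)

theorem evec_col (k l : ι) : ∑ a, evec hA a k * evec hA a l = if k = l then 1 else 0 := by
  have h := congrFun (congrFun (Unitary.coe_star_mul_self hA.eigenvectorUnitary) k) l
  simpa [Matrix.mul_apply, Matrix.one_apply, evec] using h

theorem evec_row (a b : ι) : ∑ k, evec hA a k * evec hA b k = if a = b then 1 else 0 := by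
  have h := congrFun (congrFun (Unitary.coe_mul_star_self hA.eigenvectorUnitary) a) b
  simpa [Matrix.mul_apply, Matrix.one_apply, evec] using h

theorem mulVec_evec (a k : ι) : ∑ b, A a b * evec hA b k = hA.eigenvalues k * evec hA a k := by
  have h := congrFun (hA.mulVec_eigenvectorBasis k) a
  simpa [Matrix.mulVec, dotProduct, evec] using h

theorem evec_spec (a b : ι) : A a b = ∑ k, evec hA a k * hA.eigenvalues k * evec hA b k := by
  calc A a b = ∑ c, A a c * if c = b then 1 else 0 := by simp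
    _ = ∑ c, ∑ k, A a c * evec hA c k * evec hA b k := by
        refine Finset.sum_congr rfl fun c _ => ?_
        rw [← evec_row hA c b, Finset.mul_sum]
        exact Finset.sum_congr rfl fun k _ => by ring
    _ = _ := by
        rw [Finset.sum_comm]
        refine Finset.sum_congr rfl fun k _ => ?_
        rw [← Finset.sum_mul, mulVec_evec]
        ring

theorem evec_colC (k l : ι) :
    ∑ a, (evec hA a k : ℂ) * (evec hA a l : ℂ) = if k = l then 1 else 0 := by
  have h := congrArg (fun x : ℝ => (x : ℂ)) (evec_col hA k l)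
  push_cast at h
  rw [h]; split_ifs <;> simp

theorem evec_rowC (a b : ι) :
    ∑ k, (evec hA a k : ℂ) * (evec hA b k : ℂ) = if a = b then 1 else 0 := by
  have h := congrArg (fun x : ℝ => (x : ℂ)) (evec_row hA a b)
  push_cast at h
  rw [h]; split_ifs <;> simp

theorem rfc_apply (f : ℝ → ℂ) (a b : ι) :
    rfc hA f a b = ∑ k, (evec hA a k : ℂ) * f (hA.eigenvalues k) * (evec hA b k : ℂ) := rfl

theorem rfc_symm (f : ℝ → ℂ) (a b : ι) : rfc hA f a b = rfc hA f b a := by
  simp only [rfc_apply]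
  exact Finset.sum_congr rfl fun k _ => by ring

theorem rfc_congr {f g : ℝ → ℂ} (h : ∀ k, f (hA.eigenvalues k) = g (hA.eigenvalues k)) :
    rfc hA f = rfc hA g := by
  ext a b
  simp only [rfc_apply, h]

theorem rfc_mul (f g : ℝ → ℂ) : rfc hA f * rfc hA g = rfc hA (fun x => f x * g x) := by
  ext a b
  simp only [Matrix.mul_apply, rfc_apply, Finset.sum_mul_sum]
  rw [Finset.sum_comm]
  refine Finset.sum_congr rfl fun k _ => ?_
  rw [Finset.sum_comm]
  calc ∑ l, ∑ c, (evec hA a k : ℂ) * f (hA.eigenvalues k) * (evec hA c k : ℂ) *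
        ((evec hA c l : ℂ) * g (hA.eigenvalues l) * (evec hA b l : ℂ))
      = ∑ l, (evec hA a k : ℂ) * f (hA.eigenvalues k) * g (hA.eigenvalues l) * (evec hA b l : ℂ) *
        if k = l then 1 else 0 := by
        refine Finset.sum_congr rfl fun l _ => ?_
        rw [← evec_colC hA k l, Finset.mul_sum]
        exact Finset.sum_congr rfl fun c _ => by ring
    _ = _ := by
        simp only [mul_ite, mul_one, mul_zero, Finset.sum_ite_eq, Finset.mem_univ, if_true]
        ring

theorem rfc_const (c : ℂ) : rfc hA (fun _ => c) = c • (1 : Matrix ι ι ℂ) := by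
  ext a b
  rw [rfc_apply, Matrix.smul_apply, Matrix.one_apply, ← evec_rowC hA a b, smul_eq_mul,
    Finset.mul_sum]
  exact Finset.sum_congr rfl fun k _ => by ring

theorem rfc_id : rfc hA (fun x => (x : ℂ)) = cx A := by
  ext a b
  rw [rfc_apply, cx_apply, evec_spec hA a b]
  push_cast
  rfl

theorem rfc_add (f g : ℝ → ℂ) : rfc hA (fun x => f x + g x) = rfc hA f + rfc hA g := by
  ext a b
  simp only [rfc_apply, Matrix.add_apply, ← Finset.sum_add_distrib]
  exact Finset.sum_congr rfl fun k _ => by ring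

theorem rfc_sub (f g : ℝ → ℂ) : rfc hA (fun x => f x - g x) = rfc hA f - rfc hA g := by
  ext a b
  simp only [rfc_apply, Matrix.sub_apply, ← Finset.sum_sub_distrib]
  exact Finset.sum_congr rfl fun k _ => by ring

theorem rfc_smul (c : ℂ) (f : ℝ → ℂ) : rfc hA (fun x => c * f x) = c • rfc hA f := by
  ext a b
  simp only [rfc_apply, Matrix.smul_apply, smul_eq_mul, Finset.mul_sum]
  exact Finset.sum_congr rfl fun k _ => by ring

theorem rfc_conj (f : ℝ → ℂ) (a b : ι) :
    conj (rfc hA f a b) = rfc hA (fun x => conj (f x)) a b := by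
  simp only [rfc_apply, map_sum, map_mul, conj_ofReal]

theorem trace_rfc (f : ℝ → ℂ) : (rfc hA f).trace = ∑ k, f (hA.eigenvalues k) := by
  simp only [Matrix.trace, Matrix.diag, rfc_apply]
  rw [Finset.sum_comm]
  refine Finset.sum_congr rfl fun k _ => ?_
  have h := evec_colC hA k k
  rw [if_pos rfl] at h
  calc ∑ a, (evec hA a k : ℂ) * f (hA.eigenvalues k) * (evec hA a k : ℂ)
      = f (hA.eigenvalues k) * ∑ a, (evec hA a k : ℂ) * (evec hA a k : ℂ) := by
        rw [Finset.mul_sum]
        exact Finset.sum_congr rfl fun a _ => by ring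
    _ = _ := by rw [h, mul_one]

/-- `∑ a b, f(A)_{ab} g(A)_{ab} = ∑ f g (λ)` -/
theorem sum_rfc_mul (f g : ℝ → ℂ) :
    ∑ a, ∑ b, rfc hA f a b * rfc hA g a b = ∑ k, f (hA.eigenvalues k) * g (hA.eigenvalues k) := by
  rw [← trace_rfc hA (fun x => f x * g x), ← rfc_mul]
  simp only [Matrix.trace, Matrix.diag, Matrix.mul_apply]
  exact Finset.sum_congr rfl fun a _ => Finset.sum_congr rfl fun b _ => by rw [rfc_symm hA g a b]

/-- bilinear form of `f(A)` on real vectors -/
theorem rfc_form (f : ℝ → ℂ) (u v : ι → ℝ) :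
    ∑ a, ∑ b, (u a : ℂ) * rfc hA f a b * (v b : ℂ) =
      ∑ k, ((∑ a, evec hA a k * u a : ℝ) : ℂ) * f (hA.eigenvalues k) *
        ((∑ b, evec hA b k * v b : ℝ) : ℂ) := by
  simp only [rfc_apply, Finset.mul_sum, Finset.sum_mul]
  push_cast
  simp only [Finset.mul_sum, Finset.sum_mul]
  calc _ = ∑ a, ∑ k, ∑ b, (u a : ℂ) * ((evec hA a k : ℂ) * f (hA.eigenvalues k) *
        (evec hA b k : ℂ)) * (v b : ℂ) := Finset.sum_congr rfl fun a _ => Finset.sum_comm
    _ = ∑ k, ∑ a, ∑ b, (u a : ℂ) * ((evec hA a k : ℂ) * f (hA.eigenvalues k) *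
        (evec hA b k : ℂ)) * (v b : ℂ) := Finset.sum_comm
    _ = _ := by
        refine Finset.sum_congr rfl fun k _ => ?_
        rw [Finset.sum_comm]
        exact Finset.sum_congr rfl fun b _ => Finset.sum_congr rfl fun a _ => by ring

theorem norm_rfc_le {f : ℝ → ℂ} {C : ℝ} (hf : ∀ k, ‖f (hA.eigenvalues k)‖ ≤ C) (a b : ι) :
    ‖rfc hA f a b‖ ≤ C := by
  have ha := evec_row hA a a
  have hb := evec_row hA b b
  rw [if_pos rfl] at ha hb
  have hC : 0 ≤ C := (norm_nonneg _).trans (hf a)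
  calc ‖rfc hA f a b‖ ≤ ∑ k, ‖(evec hA a k : ℂ) * f (hA.eigenvalues k) * (evec hA b k : ℂ)‖ :=
        norm_sum_le _ _
    _ ≤ ∑ k, C / 2 * (evec hA a k * evec hA a k + evec hA b k * evec hA b k) := by
        refine Finset.sum_le_sum fun k _ => ?_
        rw [norm_mul, norm_mul, Complex.norm_real, Complex.norm_real, Real.norm_eq_abs,
          Real.norm_eq_abs]
        have h1 : |evec hA a k| * |evec hA b k| ≤
            (evec hA a k * evec hA a k + evec hA b k * evec hA b k) / 2 := by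
          nlinarith [sq_nonneg (|evec hA a k| - |evec hA b k|), abs_mul_abs_self (evec hA a k),
            abs_mul_abs_self (evec hA b k)]
        calc |evec hA a k| * ‖f (hA.eigenvalues k)‖ * |evec hA b k|
            = ‖f (hA.eigenvalues k)‖ * (|evec hA a k| * |evec hA b k|) := by ring
          _ ≤ C * ((evec hA a k * evec hA a k + evec hA b k * evec hA b k) / 2) :=
            mul_le_mul (hf k) h1 (by positivity) hC
          _ = _ := by ring
    _ = C := by rw [← Finset.mul_sum, Finset.sum_add_distrib, ha, hb]; ring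

theorem real_sub_ne {z : ℂ} (hz : z.im ≠ 0) (x : ℝ) : (x : ℂ) - z ≠ 0 := fun h => by
  have := congrArg Complex.im h
  simp at this
  exact hz this

theorem abs_im_le_norm_sub (z : ℂ) (x : ℝ) : |z.im| ≤ ‖(x : ℂ) - z‖ := by
  have := Complex.abs_im_le_norm ((x : ℂ) - z)
  simpa using this

theorem norm_inv_sub_le {z : ℂ} (hz : z.im ≠ 0) (x : ℝ) : ‖((x : ℂ) - z)⁻¹‖ ≤ |z.im|⁻¹ := by
  rw [norm_inv]
  exact inv_anti₀ (abs_pos.2 hz) (abs_im_le_norm_sub z x)

theorem im_inv_sub (z : ℂ) (x : ℝ) : (((x : ℂ) - z)⁻¹).im = z.im * ‖((x : ℂ) - z)⁻¹‖ ^ 2 := by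
  rw [Complex.inv_im, norm_inv, inv_pow, Complex.sq_norm]
  simp [div_eq_mul_inv]

theorem sub_mul_rfc {z : ℂ} (hz : z.im ≠ 0) :
    (cx A - z • (1 : Matrix ι ι ℂ)) * rfc hA (fun x => ((x : ℂ) - z)⁻¹) = 1 := by
  rw [← rfc_id hA, ← rfc_const hA, ← rfc_sub, rfc_mul,
    rfc_congr hA (g := fun _ => 1) fun k => mul_inv_cancel₀ (real_sub_ne hz _), rfc_const, one_smul]

theorem res_eq {z : ℂ} (hz : z.im ≠ 0) : res A z = rfc hA (fun x => ((x : ℂ) - z)⁻¹) :=
  Matrix.inv_eq_right_inv (sub_mul_rfc hA hz)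

include hA in
theorem sub_mul_res {z : ℂ} (hz : z.im ≠ 0) : (cx A - z • (1 : Matrix ι ι ℂ)) * res A z = 1 := by
  rw [res_eq hA hz, sub_mul_rfc hA hz]

include hA in
theorem res_mul_sub {z : ℂ} (hz : z.im ≠ 0) : res A z * (cx A - z • (1 : Matrix ι ι ℂ)) = 1 :=
  mul_eq_one_comm.1 (sub_mul_res hA hz)

include hA in
theorem det_sub_ne {z : ℂ} (hz : z.im ≠ 0) : (cx A - z • (1 : Matrix ι ι ℂ)).det ≠ 0 :=
  (Matrix.isUnit_det_of_right_inverse (sub_mul_res hA hz)).ne_zero

include hA in
theorem res_symm {z : ℂ} (hz : z.im ≠ 0) (a b : ι) : res A z a b = res A z b a := by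
  rw [res_eq hA hz, rfc_symm]

include hA in
theorem norm_res_le {z : ℂ} (hz : z.im ≠ 0) (a b : ι) : ‖res A z a b‖ ≤ |z.im|⁻¹ := by
  rw [res_eq hA hz]
  exact norm_rfc_le hA (fun k => norm_inv_sub_le hz _) a b

include hA in
theorem norm_res_sq_le {z : ℂ} (hz : z.im ≠ 0) (a b : ι) :
    ‖(res A z * res A z) a b‖ ≤ |z.im|⁻¹ ^ 2 := by
  rw [res_eq hA hz, rfc_mul]
  refine norm_rfc_le hA (fun k => ?_) a b
  rw [norm_mul, sq]
  exact mul_le_mul (norm_inv_sub_le hz _) (norm_inv_sub_le hz _) (norm_nonneg _) (by positivity)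

theorem trace_res {z : ℂ} (hz : z.im ≠ 0) :
    (res A z).trace = ∑ k, ((hA.eigenvalues k : ℂ) - z)⁻¹ := by
  rw [res_eq hA hz, trace_rfc]

include hA in
theorem conj_res {z : ℂ} (hz : z.im ≠ 0) (a b : ι) : conj (res A z a b) = res A (conj z) a b := by
  rw [res_eq hA hz, res_eq hA (z := conj z) (by simpa using hz), rfc_conj]
  simp

include hA in
/-- Ward identity -/
theorem ward {z : ℂ} (hz : z.im ≠ 0) (a : ι) :
    z.im * ∑ b, ‖res A z a b‖ ^ 2 = (res A z a a).im := by
  have h1 : ((∑ b, ‖res A z a b‖ ^ 2 : ℝ) : ℂ) =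
      rfc hA (fun x => ((‖((x : ℂ) - z)⁻¹‖ ^ 2 : ℝ) : ℂ)) a a := by
    have : rfc hA (fun x => ((‖((x : ℂ) - z)⁻¹‖ ^ 2 : ℝ) : ℂ)) =
        rfc hA (fun x => ((x : ℂ) - z)⁻¹) * rfc hA (fun x => conj (((x : ℂ) - z)⁻¹)) := by
      rw [rfc_mul]
      refine rfc_congr hA fun k => ?_
      rw [Complex.mul_conj, Complex.normSq_eq_norm_sq]
    rw [this, Matrix.mul_apply]
    push_cast
    refine Finset.sum_congr rfl fun b _ => ?_
    rw [← rfc_conj, rfc_symm hA _ b a, ← res_eq hA hz, Complex.mul_conj, Complex.normSq_eq_norm_sq]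
    push_cast
    rfl
  have h2 := congrArg Complex.re h1
  rw [Complex.ofReal_re] at h2
  rw [h2, res_eq hA hz, rfc_apply, rfc_apply, Complex.re_sum, Complex.im_sum, Finset.mul_sum]
  refine Finset.sum_congr rfl fun k _ => ?_
  rw [← Complex.ofReal_mul, ← Complex.ofReal_mul, Complex.ofReal_re, Complex.im_mul_ofReal,
    Complex.im_ofReal_mul, im_inv_sub]
  ring

include hA in
/-- resolvent identity -/
theorem res_sub_res {B : Matrix ι ι ℝ} (hB : B.IsHermitian) {z w : ℂ} (hz : z.im ≠ 0)
    (hw : w.im ≠ 0) :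
    res A z - res B w = res A z * (cx B - cx A + (z - w) • (1 : Matrix ι ι ℂ)) * res B w := by
  have e : cx B - cx A + (z - w) • (1 : Matrix ι ι ℂ) =
      (cx B - w • (1 : Matrix ι ι ℂ)) - (cx A - z • (1 : Matrix ι ι ℂ)) := by
    rw [sub_smul]; abel
  rw [e, Matrix.mul_sub, Matrix.sub_mul, res_mul_sub hA hz, Matrix.mul_assoc, sub_mul_res hB hw,
    Matrix.mul_one, Matrix.one_mul]

/-- bilinear form of the resolvent on real vectors -/
theorem res_form {z : ℂ} (hz : z.im ≠ 0) (u v : ι → ℝ) :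
    ∑ a, ∑ b, (u a : ℂ) * res A z a b * (v b : ℂ) =
      ∑ k, ((∑ a, evec hA a k * u a : ℝ) : ℂ) * ((hA.eigenvalues k : ℂ) - z)⁻¹ *
        ((∑ b, evec hA b k * v b : ℝ) : ℂ) := by
  rw [res_eq hA hz, rfc_form]

/-- The resolvent depends continuously on the symmetric matrix (entrywise). -/
theorem continuous_res {X : Type*} [TopologicalSpace X] {M : X → Matrix ι ι ℝ}
    (hM : ∀ a b, Continuous fun x => M x a b) (hs : ∀ x, (M x).IsHermitian) {z : ℂ}
    (hz : z.im ≠ 0) (a b : ι) : Continuous fun x => res (M x) z a b := by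
  have hc : Continuous fun x => cx (M x) - z • (1 : Matrix ι ι ℂ) := by
    refine Continuous.sub (continuous_matrix fun i j => ?_) continuous_const
    exact Complex.continuous_ofReal.comp (hM i j)
  have h1 : ∀ x, res (M x) z a b = ((cx (M x) - z • (1 : Matrix ι ι ℂ)).det)⁻¹ *
      (cx (M x) - z • (1 : Matrix ι ι ℂ)).adjugate a b := by
    intro x
    rw [res, Matrix.inv_def, Ring.inverse_eq_inv', Matrix.smul_apply, smul_eq_mul]
  simp_rw [h1]
  exact (hc.matrix_det.inv₀ fun x => det_sub_ne (hs x) hz).mul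
    (hc.matrix_adjugate.matrix_elem a b)

/-- The resolvent entries are measurable functions of the matrix entries and of `z`. -/
theorem measurable_res {X : Type*} [MeasurableSpace X] {M : X → Matrix ι ι ℝ}
    (hM : ∀ a b, Measurable fun x => M x a b) {z : X → ℂ} (hz : Measurable z) (a b : ι) :
    Measurable fun x => res (M x) (z x) a b := by
  have h1 : ∀ x, res (M x) (z x) a b = ((cx (M x) - z x • (1 : Matrix ι ι ℂ)).det)⁻¹ *
      (cx (M x) - z x • (1 : Matrix ι ι ℂ)).adjugate a b := by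
    intro x
    rw [res, Matrix.inv_def, Ring.inverse_eq_inv', Matrix.smul_apply, smul_eq_mul]
  simp_rw [h1]
  have hm : Measurable fun x => fun i j => (cx (M x) - z x • (1 : Matrix ι ι ℂ)) i j := by
    refine measurable_pi_lambda _ fun i => measurable_pi_lambda _ fun j => ?_
    simp only [Matrix.sub_apply, cx_apply, Matrix.smul_apply, smul_eq_mul]
    exact (Complex.measurable_ofReal.comp (hM i j)).sub (hz.mul measurable_const)
  have hid : Continuous fun B : ι → ι → ℂ => (Matrix.of B : Matrix ι ι ℂ) := continuous_id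
  exact ((hid.matrix_det.measurable.comp hm).inv).mul
    ((hid.matrix_adjugate.matrix_elem a b).measurable.comp hm)

/-- derivative of the resolvent along a line of symmetric matrices -/
theorem hasDerivAt_res {D : Matrix ι ι ℝ} (hA : A.IsHermitian) (hD : D.IsHermitian) {z : ℂ}
    (hz : z.im ≠ 0) (a b : ι) :
    HasDerivAt (fun t : ℝ => res (A + t • D) z a b) (-(res A z * cx D * res A z) a b) 0 := by
  have hs : ∀ t : ℝ, (A + t • D).IsHermitian := fun t => herm_of_symm fun i j => by
    simp only [Matrix.add_apply, Matrix.smul_apply, herm_symm hA i j, herm_symm hD i j]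
  have hc : ∀ i j, Continuous fun t : ℝ => res (A + t • D) z i j := fun i j =>
    continuous_res (fun i j => by
      simp only [Matrix.add_apply, Matrix.smul_apply, smul_eq_mul]; fun_prop) hs hz i j
  have hk : Continuous fun t : ℝ => -(res (A + t • D) z * cx D * res A z) a b := by
    simp only [Matrix.mul_apply]
    exact (continuous_finsetSum _ fun j _ => (continuous_finsetSum _ fun i _ =>
      (hc a i).mul continuous_const).mul continuous_const).neg
  have he : ∀ t : ℝ, res (A + t • D) z a b - res A z a b =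
      t • -(res (A + t • D) z * cx D * res A z) a b := by
    intro t
    have h := congrFun (congrFun (res_sub_res (hs t) hA hz hz) a) b
    rw [Matrix.sub_apply] at h
    rw [h, cx_add, cx_smul, sub_self, zero_smul, add_zero, sub_add_cancel_left, Matrix.mul_neg,
      Matrix.neg_mul, Matrix.mul_smul, Matrix.smul_mul]
    simp
  rw [hasDerivAt_iff_tendsto_slope_zero]
  have h0 := (hk.tendsto 0).mono_left (nhdsWithin_le_nhds (s := {0}ᶜ))
  simp only [zero_smul, add_zero] at h0
  refine h0.congr' ?_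
  filter_upwards [self_mem_nhdsWithin] with t ht
  rw [zero_add, zero_smul, add_zero, he t, smul_smul, inv_mul_cancel₀ ht, one_smul]

end Crest.Agent.R166
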