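import Crest.Agent.R166.Defs
import Crest.Agent.R164.G2

/-!
# Row 166, part E: the GOE as `c (X + Xᵀ)`, orthogonal invariance
-/

set_option autoImplicit false
open Matrix Finset MeasureTheory ProbabilityTheory
open Crest.ProbabilityR.RandomMatrix

noncomputable section
namespace Crest.Agent.R166

/-- the symmetrised matrix `c (X + Xᵀ)` -/
def symG {ι : Type} (c : ℝ) (X : ι × ι → ℝ) : Matrix ι ι ℝ :=
  Matrix.of fun i j => c * (X (i, j) + X (j, i))

theorem symG_apply {ι : Type} (c : ℝ) (X : ι × ι → ℝ) (i j : ι) :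
    symG c X i j = c * (X (i, j) + X (j, i)) := rfl

theorem symG_herm {ι : Type} (c : ℝ) (X : ι × ι → ℝ) : (symG c X).IsHermitian :=
  herm_of_symm fun i j => by rw [symG_apply, symG_apply, add_comm]

theorem continuous_symG {ι : Type} (c : ℝ) (i j : ι) :
    Continuous fun X : ι × ι → ℝ => symG c X i j := by
  simp only [symG_apply]; fun_prop

theorem measurable_symG {ι : Type} (c : ℝ) (i j : ι) :
    Measurable fun X : ι × ι → ℝ => symG c X i j := by
  simp only [symG_apply]; fun_prop

theorem goeMatrix_herm {n : ℕ} (g : GOEDisorder n) : (goeMatrix g).IsHermitian :=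
  herm_of_symm fun i j => by
    unfold goeMatrix
    rcases lt_trichotomy i j with h | h | h
    · simp [h, h.ne, h.ne', h.not_gt]
    · subst h; rfl
    · simp [h, h.ne, h.ne', h.not_gt]

/-- orthonormal linear statistics of a standard Gaussian vector -/
theorem gpi_orth {I J : Type} [Fintype I] [Fintype J] [DecidableEq J] (c : J → I → ℝ)
    (hc : ∀ a b, ∑ i, c a i * c b i = if a = b then 1 else 0) :
    MeasurePreserving (fun (g : I → ℝ) a => ∑ i, c a i * g i) (gpi I) (gpi J) := by
  refine ⟨by fun_prop, ?_⟩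
  have h := Crest.Agent.R164.gauss_lin c (fun _ => 1) hc
  simp only [Real.sqrt_one, one_mul] at h
  exact h.trans Measure.map_id

theorem mp_gpi_inj {I J : Type} [Fintype I] [Fintype J] (ι : J → I) (h : Function.Injective ι) :
    MeasurePreserving (fun (g : I → ℝ) a => g (ι a)) (gpi I) (gpi J) :=
  ⟨by fun_prop, Crest.Agent.R164.gpi_map_inj ι h⟩

theorem mp_gpi_sum (I J : Type) [Fintype I] [Fintype J] :
    MeasurePreserving (fun g : I ⊕ J → ℝ => (fun a => g (Sum.inl a), fun b => g (Sum.inr b)))
      (gpi (I ⊕ J)) ((gpi I).prod (gpi J)) :=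
  measurePreserving_sumPiEquivProdPi (X := fun _ : I ⊕ J => ℝ) fun _ => gaussianReal 0 1

theorem gpi_mulVec {I : Type} [Fintype I] [DecidableEq I] {O : Matrix I I ℝ} (hO : O * Oᵀ = 1) :
    MeasurePreserving (fun g : I → ℝ => O *ᵥ g) (gpi I) (gpi I) :=
  gpi_orth (fun a i => O a i) fun a b => by
    have := congrFun (congrFun hO a) b
    simpa [Matrix.mul_apply, Matrix.one_apply] using this

/-- `X ↦ O X Oᵀ` -/
def conjX {ι : Type} [Fintype ι] (O : Matrix ι ι ℝ) (X : ι × ι → ℝ) : ι × ι → ℝ :=
  fun p => ∑ q : ι × ι, (O p.1 q.1 * O p.2 q.2) * X q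

theorem mp_conjX {ι : Type} [Fintype ι] [DecidableEq ι] {O : Matrix ι ι ℝ} (hO : O * Oᵀ = 1) :
    MeasurePreserving (conjX O) (gpi (ι × ι)) (gpi (ι × ι)) := by
  have h : ∀ a b, ∑ i, O a i * O b i = if a = b then 1 else 0 := fun a b => by
    have := congrFun (congrFun hO a) b
    simpa [Matrix.mul_apply, Matrix.one_apply] using this
  refine gpi_orth (fun p q : ι × ι => O p.1 q.1 * O p.2 q.2) fun a b => ?_
  rw [Fintype.sum_prod_type]
  calc ∑ x, ∑ y, O a.1 x * O a.2 y * (O b.1 x * O b.2 y)
      = (∑ x, O a.1 x * O b.1 x) * ∑ y, O a.2 y * O b.2 y := by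
        rw [Finset.sum_mul_sum]
        exact Finset.sum_congr rfl fun x _ => Finset.sum_congr rfl fun y _ => by ring
    _ = _ := by
        rw [h, h]
        obtain ⟨a1, a2⟩ := a
        obtain ⟨b1, b2⟩ := b
        by_cases h1 : a1 = b1 <;> by_cases h2 : a2 = b2 <;> simp [h1, h2]

theorem symG_conjX {ι : Type} [Fintype ι] (c : ℝ) (O : Matrix ι ι ℝ) (X : ι × ι → ℝ) :
    symG c (conjX O X) = O * symG c X * Oᵀ := by
  ext i j
  simp only [symG_apply, conjX, Matrix.mul_apply, Matrix.transpose_apply, Fintype.sum_prod_type,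
    Finset.sum_mul, Finset.mul_sum, mul_add, add_mul, Finset.sum_add_distrib]
  congr 1
  · rw [Finset.sum_comm]
    exact Finset.sum_congr rfl fun x _ => Finset.sum_congr rfl fun y _ => by ring
  · exact Finset.sum_congr rfl fun x _ => Finset.sum_congr rfl fun y _ => by ring

theorem measurable_conjX {ι Ω : Type} [Fintype ι] [MeasurableSpace Ω] {O : Ω → Matrix ι ι ℝ}
    (hO : ∀ a b, Measurable fun ω => O ω a b) {X : Ω → ι × ι → ℝ} (hX : Measurable X) :
    Measurable fun ω => conjX (O ω) (X ω) := by
  refine measurable_pi_lambda _ fun p => Finset.measurable_sum _ fun q _ => ?_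
  exact ((hO _ _).mul (hO _ _)).mul ((measurable_pi_apply q).comp hX)

/-! ### the law of `goeMatrix` -/

private def al {n : ℕ} (a : Fin n × Fin n) : ℝ := if a.1 = a.2 then 1 else (√2)⁻¹
private def be {n : ℕ} (a : Fin n × Fin n) : ℝ :=
  if a.1 = a.2 then 0 else if a.1 < a.2 then (√2)⁻¹ else -(√2)⁻¹

private theorem al_swap {n : ℕ} (a : Fin n × Fin n) : al a.swap = al a := by
  simp [al, eq_comm]

private theorem be_swap {n : ℕ} (a : Fin n × Fin n) : be a.swap = -be a := by
  unfold be
  rcases lt_trichotomy a.1 a.2 with h | h | h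
  · simp [h, h.ne, h.ne', h.not_gt]
  · simp [h]
  · simp [h, h.ne, h.ne', h.not_gt]

/-- the orthogonal change of variables from `X` to the GOE disorder -/
def goeT {n : ℕ} (X : Fin n × Fin n → ℝ) : GOEDisorder n :=
  fun i j => al (i, j) * X (i, j) + be (i, j) * X (j, i)

theorem mp_goeT (n : ℕ) : MeasurePreserving (goeT (n := n)) (gpi (Fin n × Fin n))
    (goeDisorderLaw n) := by
  have h2 : MeasurePreserving (MeasurableEquiv.curry (Fin n) (Fin n) ℝ) (gpi (Fin n × Fin n))
      (goeDisorderLaw n) := by
    refine ⟨(MeasurableEquiv.curry (Fin n) (Fin n) ℝ).measurable, ?_⟩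
    have := Measure.infinitePi_map_curry (fun (_ _ : Fin n) => gaussianReal 0 1)
    simp only [Measure.infinitePi_eq_pi] at this
    exact this
  have hs : (√2)⁻¹ * (√2)⁻¹ = (1 / 2 : ℝ) := by
    rw [← mul_inv, Real.mul_self_sqrt (by norm_num)]; norm_num
  have h1 := gpi_orth (I := Fin n × Fin n) (J := Fin n × Fin n)
    (fun a p => al a * (if p = a then 1 else 0) + be a * (if p = a.swap then 1 else 0)) (by
      intro a b
      simp only [mul_ite, mul_one, mul_zero, add_mul, mul_add, ite_mul, zero_mul,
        Finset.sum_add_distrib, Finset.sum_ite_eq', Finset.mem_univ, if_true]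
      by_cases hab : a = b
      · subst hab
        by_cases hd : a.1 = a.2
        · have hb : be a = 0 := by simp [be, hd]
          have ha : al a = 1 := by simp [al, hd]
          simp [ha, hb]
        · have hne : a.swap ≠ a := fun h => hd (congrArg Prod.snd h)
          have ha : al a * al a = 1 / 2 := by simp only [al, hd, if_false, hs]
          have hb : be a * be a = 1 / 2 := by
            simp only [be, hd, if_false]
            split_ifs
            · exact hs
            · rw [neg_mul_neg, hs]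
          simp only [if_true, hne, hne.symm, if_false, ha, hb]
          norm_num
      · have h3 : ¬ b.swap = a.swap := fun h => hab (Prod.swap_injective h).symm
        have h4 : ¬ b = a := fun h => hab h.symm
        by_cases h5 : b = a.swap
        · subst h5
          simp only [Prod.swap_swap, if_true, al_swap, be_swap, hab, h4, if_false]
          ring
        · have h6 : ¬ b.swap = a := fun h => h5 (by rw [← h, Prod.swap_swap])
          simp [hab, h3, h4, h5, h6])
  convert h2.comp h1 using 1
  funext X i j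
  simp [goeT, add_mul, Finset.sum_add_distrib, MeasurableEquiv.coe_curry, Function.curry]

theorem mp_curry (n : ℕ) : MeasurePreserving (fun (Y : Fin n × Fin n → ℝ) i j => Y (i, j))
    (gpi (Fin n × Fin n)) (goeDisorderLaw n) := by
  refine ⟨(MeasurableEquiv.curry (Fin n) (Fin n) ℝ).measurable, ?_⟩
  have := Measure.infinitePi_map_curry (fun (_ _ : Fin n) => gaussianReal 0 1)
  simp only [Measure.infinitePi_eq_pi] at this
  exact this

instance (n : ℕ) : IsProbabilityMeasure (goeDisorderLaw n) := by
  unfold goeDisorderLaw; infer_instance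

theorem continuous_goeMatrix {n : ℕ} (i j : Fin n) :
    Continuous fun g : GOEDisorder n => goeMatrix g i j := by
  unfold goeMatrix
  split_ifs <;> fun_prop

/-- the scale of the `n × n` GOE -/
def gc (n : ℕ) : ℝ := (√(2 * n))⁻¹

theorem gc_sq {n : ℕ} : 2 * gc n ^ 2 = (n : ℝ)⁻¹ := by
  rw [gc, inv_pow, Real.sq_sqrt (by positivity), mul_inv]
  ring

theorem gc_nonneg (n : ℕ) : 0 ≤ gc n := by unfold gc; positivity

theorem goeMatrix_goeT {n : ℕ} (X : Fin n × Fin n → ℝ) : goeMatrix (goeT X) = symG (gc n) X := by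
  have h2 : (√2 : ℝ) ≠ 0 := by positivity
  have h22 : (√2 : ℝ) * √2 = 2 := Real.mul_self_sqrt (by norm_num)
  ext i j
  have hn : (√n : ℝ) ≠ 0 := by
    have : 0 < n := Fin.pos i
    positivity
  rw [symG_apply, gc, Real.sqrt_mul (by norm_num)]
  unfold goeMatrix goeT al be
  rcases lt_trichotomy i j with h | h | h
  · simp only [h, h.ne, if_true, if_false]
    field_simp
  · subst h
    simp only [if_true]
    field_simp
    rw [sq, h22]
    ring
  · simp only [h, h.ne, h.ne', h.not_gt, if_true, if_false]
    field_simp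
    ring

/-- Integrals over the GOE are integrals over `symG`. -/
theorem integral_goe {n : ℕ} {E : Type*} [NormedAddCommGroup E] [NormedSpace ℝ E]
    (F : Matrix (Fin n) (Fin n) ℝ → E)
    (hF : AEStronglyMeasurable (fun g => F (goeMatrix g)) (goeDisorderLaw n)) :
    ∫ g, F (goeMatrix g) ∂goeDisorderLaw n = ∫ X, F (symG (gc n) X) ∂gpi (Fin n × Fin n) := by
  rw [← (mp_goeT n).map_eq, integral_map (mp_goeT n).measurable.aemeasurable
    (by rw [(mp_goeT n).map_eq]; exact hF)]
  simp only [goeMatrix_goeT]

end Crest.Agent.R166
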