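import Crest.Agent.R166.E.Goe1

/-!
# Row 166, part E: the loop equation of the GOE by Gaussian integration by parts
-/

set_option autoImplicit false
open Matrix Finset MeasureTheory ProbabilityTheory
open scoped ComplexConjugate

noncomputable section
namespace Crest.Agent.R166

theorem goe_integrable_coord {I : Type} [Fintype I] (i : I) :
    Integrable (fun g : I → ℝ => g i) (gpi I) :=
  (measurePreserving_eval (fun _ : I => gaussianReal 0 1) i).integrable_comp_of_integrable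
    (g := fun x : ℝ => x) ((memLp_id_gaussianReal 1).integrable le_rfl)

theorem goe_integrable_bdd {Ω E : Type*} [MeasurableSpace Ω] [NormedAddCommGroup E] {P : Measure Ω}
    [IsFiniteMeasure P] {f : Ω → E} (hf : AEStronglyMeasurable f P) {C : ℝ} (h : ∀ x, ‖f x‖ ≤ C) :
    Integrable f P :=
  (integrable_const C).mono' hf (Filter.Eventually.of_forall h)

theorem goe_integrable_coord_mul {I : Type} [Fintype I] (i : I) {f : (I → ℝ) → ℂ}
    (hm : Measurable f) {C : ℝ} (hb : ∀ g, ‖f g‖ ≤ C) :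
    Integrable (fun g : I → ℝ => (g i : ℂ) * f g) (gpi I) :=
  (goe_integrable_coord i).ofReal.mul_bdd hm.aestronglyMeasurable
    (Filter.Eventually.of_forall hb)

/-- complex-valued Gaussian integration by parts for bounded functions -/
theorem gpi_ibpC {I : Type} [Fintype I] [DecidableEq I] (i : I) {f f' : (I → ℝ) → ℂ}
    (hm : Measurable f) (hm' : Measurable f')
    (hf : ∀ g, HasDerivAt (fun t : ℝ => f (Function.update g i (g i + t))) (f' g) 0) {C : ℝ}
    (hb : ∀ g, ‖f g‖ ≤ C) (hb' : ∀ g, ‖f' g‖ ≤ C) :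
    ∫ g, (g i : ℂ) * f g ∂(gpi I) = ∫ g, f' g ∂(gpi I) := by
  have hC : 0 ≤ C := (norm_nonneg _).trans (hb 0)
  have hexp : ∀ g : I → ℝ, C ≤ Real.exp (C * (1 + ‖g‖)) := fun g => by
    have h1 := Real.add_one_le_exp (C * (1 + ‖g‖))
    nlinarith [norm_nonneg g]
  have i1 := goe_integrable_coord_mul i hm hb
  have i2 : Integrable f' (gpi I) := goe_integrable_bdd hm'.aestronglyMeasurable hb'
  have key : ∀ L : ℂ →L[ℝ] ℝ, (∀ w, |L w| ≤ ‖w‖) →
      L (∫ g, (g i : ℂ) * f g ∂(gpi I)) = L (∫ g, f' g ∂(gpi I)) := by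
    intro L hL
    rw [← L.integral_comp_comm i1, ← L.integral_comp_comm i2]
    have h := Crest.Agent.R164.gpi_ibp i (f := fun g => L (f g)) (f' := fun g => L (f' g))
      (L.continuous.measurable.comp hm) (L.continuous.measurable.comp hm')
      (fun g => L.hasFDerivAt.comp_hasDerivAt 0 (hf g)) (C := C)
      fun g => ⟨(hL _).trans ((hb g).trans (hexp g)), (hL _).trans ((hb' g).trans (hexp g))⟩
    refine Eq.trans (integral_congr_ae (Filter.Eventually.of_forall fun g => ?_)) h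
    change L ((g i : ℂ) * f g) = g i * L (f g)
    rw [← smul_eq_mul (g i), ← L.map_smul, Complex.real_smul]
  exact Complex.ext (key Complex.reCLM Complex.abs_re_le_norm) (key Complex.imCLM Complex.abs_im_le_norm)

section
variable {ι : Type} [Fintype ι] [DecidableEq ι]

omit [Fintype ι] in
theorem symG_update (c : ℝ) (X : ι × ι → ℝ) (p : ι × ι) (t : ℝ) :
    symG c (Function.update X p (X p + t)) = symG c X + t • symG c (Pi.single p 1) := by
  have h : ∀ q, Function.update X p (X p + t) q = X q + t * (Pi.single p (1 : ℝ) : ι × ι → ℝ) q := by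
    intro q
    by_cases hq : q = p
    · subst hq; simp
    · simp [hq]
  ext i j
  simp only [symG_apply, h, Matrix.add_apply, Matrix.smul_apply, smul_eq_mul]
  ring

theorem goe_sandwich (G : Matrix ι ι ℂ) (c : ℝ) (i j a b : ι) :
    (G * cx (symG c (Pi.single (i, j) 1)) * G) a b = c * (G a i * G j b + G a j * G i b) := by
  have h : cx (symG c (Pi.single (i, j) 1)) =
      (c : ℂ) • (Matrix.single i j (1 : ℂ) + Matrix.single j i 1) := by
    ext k l
    simp only [cx_apply, symG_apply, Pi.single_apply, Prod.mk.injEq, Matrix.smul_apply,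
      Matrix.add_apply, Matrix.single_apply, smul_eq_mul]
    push_cast
    congr 2
    · split_ifs with h1 h2 h2
      · simp
      · exact absurd ⟨h1.1.symm, h1.2.symm⟩ h2
      · exact absurd ⟨h2.1.symm, h2.2.symm⟩ h1
      · simp
    · split_ifs with h1 h2 h2
      · simp
      · exact absurd ⟨h1.2.symm, h1.1.symm⟩ h2
      · exact absurd ⟨h2.2.symm, h2.1.symm⟩ h1
      · simp
  rw [h, Matrix.mul_smul, Matrix.smul_mul, Matrix.mul_add, Matrix.add_mul, Matrix.smul_apply,
    Matrix.add_apply, smul_eq_mul]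
  congr 2 <;> simp [Matrix.mul_apply, Matrix.single_apply, ite_and]

/-- normalised trace of the resolvent -/
def mS (c : ℝ) (z : ℂ) (X : ι × ι → ℝ) : ℂ := (Fintype.card ι : ℂ)⁻¹ * (res (symG c X) z).trace

/-- the self-consistent polynomial -/
def PS (c : ℝ) (z : ℂ) (X : ι × ι → ℝ) : ℂ := 1 + z * mS c z X + mS c z X ^ 2

variable {c : ℝ} {z : ℂ}

theorem continuous_resS (hz : z.im ≠ 0) (a b : ι) :
    Continuous fun X : ι × ι → ℝ => res (symG c X) z a b :=
  continuous_res (continuous_symG c) (symG_herm c) hz a b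

theorem continuous_mS (hz : z.im ≠ 0) : Continuous (mS (ι := ι) c z) :=
  continuous_const.mul (continuous_finsetSum _ fun a _ => continuous_resS hz a a)

theorem continuous_PS (hz : z.im ≠ 0) : Continuous (PS (ι := ι) c z) :=
  (continuous_const.add (continuous_const.mul (continuous_mS hz))).add ((continuous_mS hz).pow 2)

theorem norm_mS_le (hz : z.im ≠ 0) (X : ι × ι → ℝ) : ‖mS c z X‖ ≤ |z.im|⁻¹ := by
  rcases isEmpty_or_nonempty ι with h | h
  · simp [mS]
  have hN : (0 : ℝ) < Fintype.card ι := by exact_mod_cast Fintype.card_pos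
  rw [mS, norm_mul, norm_inv, Complex.norm_natCast, inv_mul_le_iff₀ hN]
  refine (norm_sum_le _ _).trans ?_
  have := Finset.sum_le_card_nsmul Finset.univ (fun a => ‖(res (symG c X) z).diag a‖) |z.im|⁻¹
    fun a _ => norm_res_le (symG_herm c X) hz a a
  simpa using this

theorem norm_PS_le (hz : z.im ≠ 0) (X : ι × ι → ℝ) :
    ‖PS c z X‖ ≤ 1 + ‖z‖ * |z.im|⁻¹ + |z.im|⁻¹ ^ 2 := by
  have h := norm_mS_le (c := c) hz X
  refine (norm_add_le _ _).trans (add_le_add ((norm_add_le _ _).trans (add_le_add (by simp) ?_)) ?_)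
  · rw [norm_mul]; gcongr
  · rw [norm_pow]; gcongr

theorem hasDerivAt_resS (hz : z.im ≠ 0) (X : ι × ι → ℝ) (i j a b : ι) :
    HasDerivAt (fun t : ℝ => res (symG c (Function.update X (i, j) (X (i, j) + t))) z a b)
      (-(c * (res (symG c X) z a i * res (symG c X) z j b +
        res (symG c X) z a j * res (symG c X) z i b))) 0 := by
  simp_rw [symG_update]
  rw [← goe_sandwich]
  exact hasDerivAt_res (symG_herm c X) (symG_herm c _) hz a b

theorem hasDerivAt_mS (hz : z.im ≠ 0) (X : ι × ι → ℝ) (i j : ι) :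
    HasDerivAt (fun t : ℝ => mS c z (Function.update X (i, j) (X (i, j) + t)))
      (-((Fintype.card ι : ℂ)⁻¹ * (2 * c * (res (symG c X) z * res (symG c X) z) i j))) 0 := by
  have h := (HasDerivAt.fun_sum (u := Finset.univ) fun a _ =>
    hasDerivAt_resS (c := c) hz X i j a a).const_mul (Fintype.card ι : ℂ)⁻¹
  refine h.congr_deriv ?_
  rw [Finset.sum_neg_distrib, mul_neg, ← Finset.mul_sum, Matrix.mul_apply, Finset.mul_sum,
    Finset.mul_sum, Finset.mul_sum, Finset.mul_sum]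
  congr 1
  refine Finset.sum_congr rfl fun a _ => ?_
  rw [res_symm (symG_herm c X) hz a i, res_symm (symG_herm c X) hz j a]
  ring

theorem hasDerivAt_PS (hz : z.im ≠ 0) (X : ι × ι → ℝ) (i j : ι) :
    HasDerivAt (fun t : ℝ => PS c z (Function.update X (i, j) (X (i, j) + t)))
      ((z + 2 * mS c z X) *
        -((Fintype.card ι : ℂ)⁻¹ * (2 * c * (res (symG c X) z * res (symG c X) z) i j))) 0 := by
  have h := hasDerivAt_mS (c := c) hz X i j
  have h2 := ((h.const_mul z).const_add 1).fun_add (h.fun_pow 2)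
  refine h2.congr_deriv ?_
  simp only [add_zero, Function.update_eq_self]
  push_cast
  ring

/-- the derivative appearing in the Stein identity -/
def dS (c : ℝ) (z : ℂ) (i j : ι) (X : ι × ι → ℝ) : ℂ :=
  -(c * (res (symG c X) z i i * res (symG c X) z j j +
      res (symG c X) z i j * res (symG c X) z i j)) * conj (PS c z X) +
    res (symG c X) z i j * conj ((z + 2 * mS c z X) *
      -((Fintype.card ι : ℂ)⁻¹ * (2 * c * (res (symG c X) z * res (symG c X) z) i j)))

theorem continuous_dS (hz : z.im ≠ 0) (i j : ι) : Continuous (dS (ι := ι) c z i j) := by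
  have h1 := fun a b => continuous_resS (ι := ι) (c := c) hz a b
  have h2 := continuous_mS (ι := ι) (c := c) hz
  have h3 := continuous_PS (ι := ι) (c := c) hz
  have h4 : Continuous fun X : ι × ι → ℝ => (res (symG c X) z * res (symG c X) z) i j := by
    simp only [Matrix.mul_apply]
    exact continuous_finsetSum _ fun a _ => (h1 i a).mul (h1 a j)
  unfold dS
  exact ((continuous_const.mul (((h1 i i).mul (h1 j j)).add ((h1 i j).mul (h1 i j)))).neg.mul
    (Complex.continuous_conj.comp h3)).add ((h1 i j).mul (Complex.continuous_conj.comp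
      ((continuous_const.add (continuous_const.mul h2)).mul
        (continuous_const.mul (continuous_const.mul h4)).neg)))

theorem exists_bound_dS (hz : z.im ≠ 0) (i j : ι) : ∃ C : ℝ, ∀ X, ‖dS (ι := ι) c z i j X‖ ≤ C := by
  set e := |z.im|⁻¹ with he
  set Q := 1 + ‖z‖ * |z.im|⁻¹ + |z.im|⁻¹ ^ 2
  refine ⟨|c| * (e * e + e * e) * Q +
    e * ((‖z‖ + 2 * e) * ((Fintype.card ι : ℝ)⁻¹ * (2 * |c| * e ^ 2))), fun X => ?_⟩
  have h1 := fun a b => norm_res_le (symG_herm c X) hz a b
  have h2 := norm_mS_le (c := c) hz X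
  have h3 := norm_PS_le (c := c) hz X
  have h4 := norm_res_sq_le (symG_herm c X) hz i j
  have he0 : 0 ≤ e := by positivity
  unfold dS
  refine (norm_add_le _ _).trans (add_le_add ?_ ?_)
  · rw [norm_mul, norm_neg, norm_mul, Complex.norm_conj, Complex.norm_real, Real.norm_eq_abs]
    gcongr
    refine (norm_add_le _ _).trans (add_le_add ?_ ?_) <;> rw [norm_mul] <;> gcongr <;> exact h1 _ _
  · rw [norm_mul, Complex.norm_conj, norm_mul, norm_neg, norm_mul, norm_mul, norm_mul, norm_inv,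
      Complex.norm_natCast, Complex.norm_real, Real.norm_eq_abs, Complex.norm_two]
    gcongr
    · exact h1 _ _
    · refine (norm_add_le _ _).trans (add_le_add le_rfl ?_)
      rw [norm_mul, Complex.norm_two]; gcongr

theorem stein_one (hz : z.im ≠ 0) (i j : ι) :
    ∫ X, (X (i, j) : ℂ) * (res (symG c X) z i j * conj (PS c z X)) ∂gpi (ι × ι) =
      ∫ X, dS c z i j X ∂gpi (ι × ι) := by
  obtain ⟨C, hC⟩ := exists_bound_dS (c := c) hz i j
  refine gpi_ibpC (i, j) ((continuous_resS hz i j).mul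
    (Complex.continuous_conj.comp (continuous_PS hz))).measurable (continuous_dS hz i j).measurable
    (fun X => ?_) (C := max C (|z.im|⁻¹ * (1 + ‖z‖ * |z.im|⁻¹ + |z.im|⁻¹ ^ 2))) (fun X => ?_)
    fun X => (hC X).trans (le_max_left _ _)
  · have h := (hasDerivAt_resS (c := c) hz X i j i j).fun_mul (hasDerivAt_PS (c := c) hz X i j).star
    simp only [add_zero, Function.update_eq_self] at h
    exact h
  · refine le_trans ?_ (le_max_right _ _)
    rw [norm_mul, Complex.norm_conj]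
    exact mul_le_mul (norm_res_le (symG_herm c X) hz i j) (norm_PS_le hz X) (norm_nonneg _)
      (by positivity)

theorem stein_lhs (hz : z.im ≠ 0) (X : ι × ι → ℝ) :
    2 * c * ∑ i, ∑ j, (X (i, j) : ℂ) * res (symG c X) z i j =
      Fintype.card ι + z * (res (symG c X) z).trace := by
  have h1 := congrArg Matrix.trace (sub_mul_res (symG_herm c X) hz)
  rw [Matrix.sub_mul, Matrix.smul_mul, Matrix.one_mul, Matrix.trace_sub, Matrix.trace_smul,
    Matrix.trace_one, smul_eq_mul, sub_eq_iff_eq_add] at h1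
  rw [← h1]
  simp only [Matrix.trace, Matrix.diag, Matrix.mul_apply, cx_apply, symG_apply]
  push_cast
  simp only [mul_add, add_mul, Finset.sum_add_distrib]
  rw [Finset.sum_comm (f := fun i j => (c : ℂ) * (X (j, i) : ℂ) * res (symG c X) z j i), two_mul,
    add_mul, Finset.mul_sum]
  congr 1
  · refine Finset.sum_congr rfl fun i _ => ?_
    rw [Finset.mul_sum]
    exact Finset.sum_congr rfl fun j _ => by rw [res_symm (symG_herm c X) hz j i]; ring
  · refine Finset.sum_congr rfl fun i _ => ?_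
    rw [Finset.mul_sum]
    exact Finset.sum_congr rfl fun j _ => by ring

/-- `Σ G_ij²` -/
def T2S (c : ℝ) (z : ℂ) (X : ι × ι → ℝ) : ℂ := ∑ i, ∑ j, res (symG c X) z i j * res (symG c X) z i j

/-- `Σ G_ij conj (G²)_ij` -/
def T3S (c : ℝ) (z : ℂ) (X : ι × ι → ℝ) : ℂ :=
  ∑ i, ∑ j, res (symG c X) z i j * conj ((res (symG c X) z * res (symG c X) z) i j)

theorem stein_rhs (X : ι × ι → ℝ) :
    ∑ i, ∑ j, dS c z i j X = -(c * ((res (symG c X) z).trace ^ 2 + T2S c z X)) * conj (PS c z X) -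
      (Fintype.card ι : ℂ)⁻¹ * (2 * c) * conj (z + 2 * mS c z X) * T3S c z X := by
  simp only [dS, Finset.sum_add_distrib, T2S, T3S, Matrix.trace, Matrix.diag, sq,
    Finset.sum_mul_sum]
  rw [sub_eq_add_neg]
  congr 1
  · simp only [mul_add, Finset.mul_sum, neg_add, add_mul, Finset.sum_add_distrib, neg_mul,
      Finset.sum_neg_distrib, Finset.sum_mul]
  · rw [Finset.mul_sum, ← Finset.sum_neg_distrib]
    refine Finset.sum_congr rfl fun i _ => ?_
    rw [Finset.mul_sum, ← Finset.sum_neg_distrib]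
    refine Finset.sum_congr rfl fun j _ => ?_
    simp only [map_mul, map_neg, map_inv₀, map_natCast, Complex.conj_ofReal, map_ofNat]
    ring

theorem sum_sq_le (hz : 0 < z.im) (X : ι × ι → ℝ) :
    z.im * ∑ k, ‖(((symG_herm c X).eigenvalues k : ℂ) - z)⁻¹‖ ^ 2 ≤ Fintype.card ι * ‖mS c z X‖ := by
  rcases isEmpty_or_nonempty ι with h | h
  · simp
  have hN : (0 : ℝ) < Fintype.card ι := by exact_mod_cast Fintype.card_pos
  rw [mS, norm_mul, norm_inv, Complex.norm_natCast, ← mul_assoc, mul_inv_cancel₀ hN.ne', one_mul,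
    trace_res (symG_herm c X) hz.ne', Finset.mul_sum]
  refine le_trans (le_of_eq ?_) ((le_abs_self _).trans (Complex.abs_im_le_norm _))
  rw [Complex.im_sum]
  exact Finset.sum_congr rfl fun k _ => (im_inv_sub z _).symm

theorem norm_T2S_le (hz : 0 < z.im) (X : ι × ι → ℝ) :
    z.im * ‖T2S c z X‖ ≤ Fintype.card ι * ‖mS c z X‖ := by
  refine le_trans (mul_le_mul_of_nonneg_left ?_ hz.le) (sum_sq_le hz X)
  rw [T2S, res_eq (symG_herm c X) hz.ne', sum_rfc_mul]
  exact (norm_sum_le _ _).trans (le_of_eq (Finset.sum_congr rfl fun k _ => by rw [norm_mul, sq]))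

theorem norm_T3S_le (hz : 0 < z.im) (X : ι × ι → ℝ) :
    z.im ^ 2 * ‖T3S c z X‖ ≤ Fintype.card ι * ‖mS c z X‖ := by
  refine le_trans ?_ (sum_sq_le hz X)
  rw [T3S, res_eq (symG_herm c X) hz.ne', rfc_mul]
  simp_rw [rfc_conj]
  rw [sum_rfc_mul, sq, mul_assoc]
  refine mul_le_mul_of_nonneg_left ?_ hz.le
  refine (mul_le_mul_of_nonneg_left (norm_sum_le _ _) hz.le).trans ?_
  rw [Finset.mul_sum]
  refine Finset.sum_le_sum fun k _ => ?_
  rw [norm_mul, Complex.norm_conj, norm_mul, ← mul_assoc, ← sq]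
  refine mul_le_of_le_one_left (by positivity) ?_
  have h := norm_inv_sub_le hz.ne' ((symG_herm c X).eigenvalues k)
  rw [abs_of_pos hz] at h
  calc z.im * _ ≤ z.im * z.im⁻¹ := mul_le_mul_of_nonneg_left h hz.le
    _ = 1 := mul_inv_cancel₀ hz.ne'

theorem goe_pointwise {p μ K : ℝ} (hK : 1 ≤ K) (h : μ ^ 2 ≤ 2 * p + 3) :
    μ * p / K + 2 * ((1 + 2 * μ) * μ) / K ^ 2 ≤ p ^ 2 / 2 + 163 / K ^ 2 := by
  have hK0 : 0 < K := by linarith
  set u := K⁻¹ with hu
  have hu0 : 0 < u := inv_pos.2 hK0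
  have hu1 : u ≤ 1 := inv_le_one_of_one_le₀ hK
  have e : ∀ a : ℝ, a / K ^ 2 = a * u ^ 2 := fun a => by rw [hu, inv_pow, div_eq_mul_inv]
  rw [e, e, div_eq_mul_inv, ← hu]
  have h1 : μ * p * u ≤ p ^ 2 / 4 + μ ^ 2 * u ^ 2 := by nlinarith [sq_nonneg (p / 2 - μ * u)]
  have h2 : 2 * ((1 + 2 * μ) * μ) ≤ 1 + 5 * μ ^ 2 := by nlinarith [sq_nonneg (μ - 1)]
  have h3 : 12 * p * u ^ 2 ≤ p ^ 2 / 4 + 144 * (u ^ 2) ^ 2 := by
    nlinarith [sq_nonneg (p / 2 - 12 * u ^ 2)]
  have h4 : (u ^ 2) ^ 2 ≤ u ^ 2 := by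
    have : u ^ 2 ≤ 1 := by nlinarith
    nlinarith [sq_nonneg u]
  have h5 : (1 + 6 * μ ^ 2) * u ^ 2 ≤ (19 + 12 * p) * u ^ 2 :=
    mul_le_mul_of_nonneg_right (by linarith) (sq_nonneg u)
  have h6 := mul_le_mul_of_nonneg_right h2 (sq_nonneg u)
  nlinarith

theorem mS_sq_le (hz : ‖z‖ ≤ 1) (X : ι × ι → ℝ) : ‖mS c z X‖ ^ 2 ≤ 2 * ‖PS c z X‖ + 3 := by
  have h1 : mS c z X ^ 2 = PS c z X - 1 - z * mS c z X := by rw [PS]; ring
  have h2 : ‖mS c z X‖ ^ 2 ≤ ‖PS c z X‖ + 1 + ‖mS c z X‖ := by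
    rw [← norm_pow, h1]
    refine (norm_sub_le _ _).trans (add_le_add ((norm_sub_le _ _).trans (by simp)) ?_)
    rw [norm_mul]
    exact mul_le_of_le_one_left (norm_nonneg _) hz
  nlinarith [sq_nonneg (‖mS c z X‖ - 1)]

/-- The loop equation at microscopic scale. -/
theorem goe_loop [Nonempty ι] (hc : 2 * c ^ 2 = (Fintype.card ι : ℝ)⁻¹) (hz : 0 < z.im)
    (hz1 : ‖z‖ ≤ 1) (hK : 1 ≤ Fintype.card ι * z.im) :
    ∫ X, ‖PS c z X‖ ^ 2 ∂gpi (ι × ι) ≤ 326 / (Fintype.card ι * z.im) ^ 2 := by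
  set N : ℝ := ((Fintype.card ι : ℕ) : ℝ) with hN
  have hN0 : 0 < N := by rw [hN]; exact_mod_cast Fintype.card_pos
  have hNC : (Fintype.card ι : ℂ) ≠ 0 := by exact_mod_cast Fintype.card_ne_zero
  have hcC : 2 * (c : ℂ) ^ 2 = (Fintype.card ι : ℂ)⁻¹ := by
    have := congrArg (fun x : ℝ => (x : ℂ)) hc
    simpa [hN] using this
  have hz' := hz.ne'
  have cP := continuous_PS (ι := ι) (c := c) hz'
  have bP := norm_PS_le (ι := ι) (c := c) hz'
  have iL : ∀ i j, Integrable (fun X : ι × ι → ℝ =>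
      (X (i, j) : ℂ) * (res (symG c X) z i j * conj (PS c z X))) (gpi (ι × ι)) := fun i j =>
    goe_integrable_coord_mul (i, j) ((continuous_resS hz' i j).mul
      (Complex.continuous_conj.comp cP)).measurable
      (C := |z.im|⁻¹ * (1 + ‖z‖ * |z.im|⁻¹ + |z.im|⁻¹ ^ 2)) fun X => by
        rw [norm_mul, Complex.norm_conj]
        exact mul_le_mul (norm_res_le (symG_herm c X) hz' i j) (bP X) (norm_nonneg _)
          (by positivity)
  have iR : ∀ i j, Integrable (dS (ι := ι) c z i j) (gpi (ι × ι)) := fun i j => by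
    obtain ⟨C, hC⟩ := exists_bound_dS (c := c) hz' i j
    exact goe_integrable_bdd (continuous_dS hz' i j).aestronglyMeasurable hC
  have iD : ∀ i j, Integrable (fun X : ι × ι → ℝ =>
      (X (i, j) : ℂ) * (res (symG c X) z i j * conj (PS c z X)) - dS c z i j X) (gpi (ι × ι)) :=
    fun i j => (iL i j).sub (iR i j)
  have h0 : ∫ X, ∑ i, ∑ j, ((X (i, j) : ℂ) * (res (symG c X) z i j * conj (PS c z X)) -
      dS c z i j X) ∂gpi (ι × ι) = 0 := by
    rw [integral_finsetSum _ fun i _ => integrable_finsetSum _ fun j _ => iD i j]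
    refine Finset.sum_eq_zero fun i _ => ?_
    rw [integral_finsetSum _ fun j _ => iD i j]
    refine Finset.sum_eq_zero fun j _ => ?_
    rw [integral_sub (iL i j) (iR i j), stein_one hz', sub_self]
  have iS : Integrable (fun X : ι × ι → ℝ => ∑ i, ∑ j, ((X (i, j) : ℂ) *
      (res (symG c X) z i j * conj (PS c z X)) - dS c z i j X)) (gpi (ι × ι)) :=
    integrable_finsetSum _ fun i _ => integrable_finsetSum _ fun j _ => iD i j
  set Rm : (ι × ι → ℝ) → ℂ := fun X => (Fintype.card ι : ℂ)⁻¹ ^ 2 * T2S c z X * conj (PS c z X) +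
    2 * (Fintype.card ι : ℂ)⁻¹ ^ 3 * conj (z + 2 * mS c z X) * T3S c z X with hRm
  have hpt : ∀ X : ι × ι → ℝ, (Fintype.card ι : ℂ)⁻¹ * (2 * c) * ∑ i, ∑ j, ((X (i, j) : ℂ) *
      (res (symG c X) z i j * conj (PS c z X)) - dS c z i j X) =
      ((‖PS c z X‖ ^ 2 : ℝ) : ℂ) + Rm X := by
    intro X
    have e1 : ∑ i, ∑ j, (X (i, j) : ℂ) * (res (symG c X) z i j * conj (PS c z X)) =
        (∑ i, ∑ j, (X (i, j) : ℂ) * res (symG c X) z i j) * conj (PS c z X) := by
      simp only [Finset.sum_mul, mul_assoc]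
    have e2 := stein_lhs (c := c) hz' X
    have e3 : (res (symG c X) z).trace = Fintype.card ι * mS c z X := by
      rw [mS, ← mul_assoc, mul_inv_cancel₀ hNC, one_mul]
    have e4 : ((‖PS c z X‖ ^ 2 : ℝ) : ℂ) = (1 + z * mS c z X + mS c z X ^ 2) * conj (PS c z X) := by
      rw [← Complex.normSq_eq_norm_sq, ← Complex.mul_conj]; rfl
    simp only [Finset.sum_sub_distrib]
    rw [e1, stein_rhs, e4, hRm, mul_assoc, mul_sub, ← mul_assoc (2 * (c : ℂ)), e2, e3]
    have e5 : (Fintype.card ι : ℂ)⁻¹ * Fintype.card ι = 1 := inv_mul_cancel₀ hNC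
    set a := (Fintype.card ι : ℂ)⁻¹
    set b := (Fintype.card ι : ℂ)
    simp only
    linear_combination (a * (b ^ 2 * mS c z X ^ 2 + T2S c z X) * conj (PS c z X) +
        2 * a ^ 2 * conj (z + 2 * mS c z X) * T3S c z X) * hcC +
      ((1 + z * mS c z X + (1 + a * b) * mS c z X ^ 2) * conj (PS c z X)) * e5
  have iP : Integrable (fun X : ι × ι → ℝ => ‖PS c z X‖ ^ 2) (gpi (ι × ι)) :=
    goe_integrable_bdd (cP.norm.pow 2).aestronglyMeasurable
      (C := (1 + ‖z‖ * |z.im|⁻¹ + |z.im|⁻¹ ^ 2) ^ 2) fun X => by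
        rw [Real.norm_eq_abs, abs_of_nonneg (by positivity)]
        gcongr
        exact bP X
  have h1 : ∫ X, (((‖PS c z X‖ ^ 2 : ℝ) : ℂ) + Rm X).re ∂gpi (ι × ι) = 0 := by
    simp_rw [← hpt]
    have := Complex.reCLM.integral_comp_comm (iS.const_mul ((Fintype.card ι : ℂ)⁻¹ * (2 * c)))
    simp only [Complex.reCLM_apply] at this
    rw [this, integral_const_mul, h0, mul_zero, Complex.zero_re]
  have iT : Integrable (fun X => (((‖PS c z X‖ ^ 2 : ℝ) : ℂ) + Rm X).re) (gpi (ι × ι)) := by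
    simp_rw [← hpt]
    exact Complex.reCLM.integrable_comp (iS.const_mul ((Fintype.card ι : ℂ)⁻¹ * (2 * c)))
  have hR : ∀ X, ‖Rm X‖ ≤ ‖PS c z X‖ ^ 2 / 2 + 163 / (N * z.im) ^ 2 := by
    intro X
    refine le_trans ?_ (goe_pointwise hK (mS_sq_le hz1 X))
    have t2 : ‖T2S c z X‖ ≤ N * ‖mS c z X‖ / z.im := by
      rw [le_div_iff₀' hz]; exact norm_T2S_le hz X
    have t3 : ‖T3S c z X‖ ≤ N * ‖mS c z X‖ / z.im ^ 2 := by
      rw [le_div_iff₀' (by positivity)]; exact norm_T3S_le hz X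
    have t4 : ‖z + 2 * mS c z X‖ ≤ 1 + 2 * ‖mS c z X‖ :=
      (norm_add_le _ _).trans (add_le_add hz1 (by rw [norm_mul, Complex.norm_two]))
    refine (norm_add_le _ _).trans (add_le_add ?_ ?_)
    · rw [norm_mul, norm_mul, Complex.norm_conj, norm_pow, norm_inv, Complex.norm_natCast, ← hN]
      calc N⁻¹ ^ 2 * ‖T2S c z X‖ * ‖PS c z X‖ ≤ N⁻¹ ^ 2 * (N * ‖mS c z X‖ / z.im) * ‖PS c z X‖ := by
            gcongr
        _ = _ := by field_simp
    · rw [norm_mul, norm_mul, norm_mul, Complex.norm_conj, norm_pow, norm_inv,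
        Complex.norm_natCast, Complex.norm_two, ← hN]
      calc 2 * N⁻¹ ^ 3 * ‖z + 2 * mS c z X‖ * ‖T3S c z X‖
          ≤ 2 * N⁻¹ ^ 3 * (1 + 2 * ‖mS c z X‖) * (N * ‖mS c z X‖ / z.im ^ 2) := by gcongr
        _ = _ := by field_simp
  have h2 : ∫ X, (‖PS c z X‖ ^ 2 / 2 - 163 / (N * z.im) ^ 2) ∂gpi (ι × ι) ≤ 0 := by
    rw [← h1]
    refine integral_mono ((iP.div_const 2).sub (integrable_const _)) iT fun X => ?_
    have := (abs_le.1 ((Complex.abs_re_le_norm (Rm X)).trans (hR X))).1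
    simp only [Complex.add_re, Complex.ofReal_re]
    linarith
  rw [integral_sub (iP.div_const 2) (integrable_const _), integral_div, integral_const] at h2
  simp only [probReal_univ, one_smul] at h2
  have : 326 / (N * z.im) ^ 2 = 2 * (163 / (N * z.im) ^ 2) := by ring
  linarith

theorem norm_mS_sub_I (hz : 0 < z.im) (hz1 : ‖z‖ ≤ 1 / 2) (X : ι × ι → ℝ) :
    ‖mS c z X - Complex.I‖ ≤ 2 * ‖PS c z X‖ + 2 * ‖z‖ := by
  have h0 : 0 ≤ (mS c z X).im := by
    rw [mS, trace_res (symG_herm c X) hz.ne', ← Complex.ofReal_natCast, ← Complex.ofReal_inv,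
      Complex.im_ofReal_mul, Complex.im_sum]
    refine mul_nonneg (by positivity) (Finset.sum_nonneg fun k _ => ?_)
    rw [im_inv_sub]; positivity
  have h1 : 1 ≤ ‖mS c z X + Complex.I‖ := by
    refine le_trans ?_ ((le_abs_self _).trans (Complex.abs_im_le_norm _))
    simp only [Complex.add_im, Complex.I_im]; linarith
  have h2 : (mS c z X - Complex.I) * (mS c z X + Complex.I) = PS c z X - z * mS c z X := by
    rw [PS]; linear_combination -Complex.I_mul_I
  have h3 : ‖mS c z X - Complex.I‖ ≤ ‖PS c z X‖ + ‖z‖ * ‖mS c z X‖ := by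
    calc _ ≤ ‖mS c z X - Complex.I‖ * ‖mS c z X + Complex.I‖ := le_mul_of_one_le_right (norm_nonneg _) h1
      _ = ‖PS c z X - z * mS c z X‖ := by rw [← norm_mul, h2]
      _ ≤ _ := (norm_sub_le _ _).trans (by rw [norm_mul])
  have h4 : ‖mS c z X‖ ≤ ‖mS c z X - Complex.I‖ + 1 := by
    have := norm_add_le (mS c z X - Complex.I) Complex.I
    simpa using this
  nlinarith [norm_nonneg z, norm_nonneg (mS c z X - Complex.I), norm_nonneg (mS c z X),
    mul_le_mul_of_nonneg_left h4 (norm_nonneg z)]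

end

end Crest.Agent.R166
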