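import Crest.Agent.R166.E.Goe1
import Crest.Agent.R166.Spec2

/-!
# Row 166, part E: jets of a symmetric matrix with channel vectors; the pivot identity
-/

set_option autoImplicit false
open Matrix Finset

noncomputable section
namespace Crest.Agent.R166

section gen
variable {ι : Type} [Fintype ι] [DecidableEq ι] {r : ℕ}

/-- channel vectors as the columns of a complex matrix -/
def cv (v : Fin r × ι → ℝ) : Matrix ι (Fin r) ℂ := Matrix.of fun i b => (v (b, i) : ℂ)

omit [Fintype ι] [DecidableEq ι] in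
@[simp] theorem cv_apply (v : Fin r × ι → ℝ) (i : ι) (b : Fin r) : cv v i b = (v (b, i) : ℂ) := rfl

/-- jet of the matrix `H` with channel vectors `v` at scale `t` -/
def jetM (t : ℝ) (H : Matrix ι ι ℝ) (v : Fin r × ι → ℝ) (w : ℂ) : Jet r :=
  (fun b c => t * ((cv v)ᵀ * res H (t * w) * cv v) b c,
   fun b c => t ^ 2 * ((cv v)ᵀ * (res H (t * w) * res H (t * w)) * cv v) b c,
   t * (res H (t * w)).trace)

/-- rotating all channel vectors -/
def rotV (O : Matrix ι ι ℝ) (v : Fin r × ι → ℝ) : Fin r × ι → ℝ :=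
  fun q => ∑ x, O q.2 x * v (q.1, x)

omit [DecidableEq ι] in
theorem cv_rotV (O : Matrix ι ι ℝ) (v : Fin r × ι → ℝ) : cv (rotV O v) = cx O * cv v := by
  ext i b
  simp [rotV, Matrix.mul_apply]

theorem im_mul_ne {t : ℝ} (ht : 0 < t) {w : ℂ} (hw : 0 < w.im) : ((t : ℂ) * w).im ≠ 0 := by
  rw [Complex.im_ofReal_mul]
  positivity

theorem res_orth {H O : Matrix ι ι ℝ} (hH : H.IsHermitian) (hO : O * Oᵀ = 1) {z : ℂ}
    (hz : z.im ≠ 0) : res (O * H * Oᵀ) z = cx O * res H z * (cx O)ᵀ := by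
  have h1 : cx O * (cx O)ᵀ = 1 := by rw [← cx_transpose, ← cx_mul, hO, cx_one]
  have h2 : (cx O)ᵀ * cx O = 1 := mul_eq_one_comm.1 h1
  refine Matrix.inv_eq_right_inv ?_
  have e : cx (O * H * Oᵀ) - z • (1 : Matrix ι ι ℂ) = cx O * (cx H - z • 1) * (cx O)ᵀ := by
    rw [cx_mul, cx_mul, cx_transpose, Matrix.mul_sub, Matrix.sub_mul, Matrix.mul_smul,
      Matrix.mul_one, Matrix.smul_mul, h1]
  rw [e]
  calc cx O * (cx H - z • 1) * (cx O)ᵀ * (cx O * res H z * (cx O)ᵀ)
      = cx O * ((cx H - z • 1) * ((cx O)ᵀ * cx O) * res H z) * (cx O)ᵀ := by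
        simp only [Matrix.mul_assoc]
    _ = 1 := by rw [h2, Matrix.mul_one, sub_mul_res hH hz, Matrix.mul_one, h1]

theorem jetM_orth {t : ℝ} (ht : 0 < t) {H O : Matrix ι ι ℝ} (hH : H.IsHermitian)
    (hO : O * Oᵀ = 1) (v : Fin r × ι → ℝ) {w : ℂ} (hw : 0 < w.im) :
    jetM t (O * H * Oᵀ) (rotV O v) w = jetM t H v w := by
  have h1 : cx O * (cx O)ᵀ = 1 := by rw [← cx_transpose, ← cx_mul, hO, cx_one]
  have h2 : (cx O)ᵀ * cx O = 1 := mul_eq_one_comm.1 h1
  have h3 : ∀ B : Matrix ι (Fin r) ℂ, (cx O)ᵀ * (cx O * B) = B := fun B => by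
    rw [← Matrix.mul_assoc, h2, Matrix.one_mul]
  have h4 : ∀ B : Matrix ι ι ℂ, (cx O)ᵀ * (cx O * B) = B := fun B => by
    rw [← Matrix.mul_assoc, h2, Matrix.one_mul]
  unfold jetM
  rw [res_orth hH hO (im_mul_ne ht hw), cv_rotV, Matrix.transpose_mul,
    Matrix.trace_mul_cycle (cx O), h2, Matrix.one_mul]
  simp only [Matrix.mul_assoc, h3, h4]

theorem continuous_jetM {X : Type*} [TopologicalSpace X] {t : ℝ} (ht : 0 < t)
    {H : X → Matrix ι ι ℝ} (hH : ∀ a b, Continuous fun x => H x a b) (hs : ∀ x, (H x).IsHermitian)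
    {v : X → Fin r × ι → ℝ} (hv : Continuous v) {w : ℂ} (hw : 0 < w.im) :
    Continuous fun x => jetM t (H x) (v x) w := by
  have h1 : Continuous fun x => res (H x) (t * w) :=
    continuous_matrix (continuous_res hH hs (im_mul_ne ht hw))
  have h2 : Continuous fun x => cv (v x) :=
    continuous_matrix fun i b => Complex.continuous_ofReal.comp ((continuous_apply (b, i)).comp hv)
  refine Continuous.prodMk ?_ (Continuous.prodMk ?_ (continuous_const.mul h1.matrix_trace))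
  · exact continuous_pi fun b => continuous_pi fun c => continuous_const.mul
      (((h2.matrix_transpose.matrix_mul h1).matrix_mul h2).matrix_elem b c)
  · exact continuous_pi fun b => continuous_pi fun c => continuous_const.mul
      (((h2.matrix_transpose.matrix_mul (h1.matrix_mul h1)).matrix_mul h2).matrix_elem b c)

omit [DecidableEq ι] in
theorem cv_form {κ : Type} [Fintype κ] (U : κ → ι → ℝ) (a : κ → ℂ) {G : Matrix ι ι ℂ}
    (hG : ∀ x y, G x y = ∑ i, ((U i x * U i y : ℝ) : ℂ) * a i) (v : Fin r × ι → ℝ) (b c : Fin r) :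
    ((cv v)ᵀ * G * cv v) b c =
      ∑ i, (((∑ x, U i x * v (b, x)) * (∑ x, U i x * v (c, x)) : ℝ) : ℂ) * a i := by
  simp only [Matrix.mul_apply, Matrix.transpose_apply, cv_apply, hG]
  push_cast
  simp only [Finset.sum_mul, Finset.mul_sum]
  calc _ = ∑ y, ∑ i, ∑ x, (v (b, x) : ℂ) * ((U i x : ℂ) * U i y * a i) * v (c, y) :=
        Finset.sum_congr rfl fun y _ => Finset.sum_comm
    _ = ∑ i, ∑ y, ∑ x, (v (b, x) : ℂ) * ((U i x : ℂ) * U i y * a i) * v (c, y) := Finset.sum_comm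
    _ = _ := Finset.sum_congr rfl fun i _ => Finset.sum_congr rfl fun y _ =>
        Finset.sum_congr rfl fun x _ => by ring

/-- changing the channels by multiples of channel `b₀` -/
theorem jetM_perturb (t : ℝ) (H : Matrix ι ι ℝ) (v v' : Fin r × ι → ℝ) (b₀ : Fin r)
    (τ : Fin r → ℝ) (h : ∀ b i, v' (b, i) = v (b, i) + τ b * v (b₀, i)) {δ : ℝ} (hδ : 0 ≤ δ)
    (hδ1 : δ ≤ 1) (hτ : ∀ b, |τ b| ≤ δ) (w : ℂ) :
    ‖jetM t H v' w - jetM t H v w‖ ≤ 3 * δ * ‖jetM t H v w‖ := by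
  have key : ∀ (a : ℂ) (G : Matrix ι ι ℂ) (R : ℝ), (∀ b c, ‖a * ((cv v)ᵀ * G * cv v) b c‖ ≤ R) →
      ∀ b c, ‖a * ((cv v')ᵀ * G * cv v') b c - a * ((cv v)ᵀ * G * cv v) b c‖ ≤ 3 * δ * R := by
    intro a G R hR b c
    have hR0 : 0 ≤ R := (norm_nonneg _).trans (hR b c)
    have e : a * ((cv v')ᵀ * G * cv v') b c - a * ((cv v)ᵀ * G * cv v) b c =
        τ b * (a * ((cv v)ᵀ * G * cv v) b₀ c) + τ c * (a * ((cv v)ᵀ * G * cv v) b b₀) +
          τ b * (τ c * (a * ((cv v)ᵀ * G * cv v) b₀ b₀)) := by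
      simp only [Matrix.mul_apply, Matrix.transpose_apply, cv_apply, h]
      push_cast
      simp only [Finset.sum_mul, Finset.mul_sum, ← Finset.sum_add_distrib,
        ← Finset.sum_sub_distrib]
      exact Finset.sum_congr rfl fun y _ => Finset.sum_congr rfl fun x _ => by ring
    have hm : ∀ (d : Fin r) (u : ℂ) (S : ℝ), ‖u‖ ≤ S → ‖(τ d : ℂ) * u‖ ≤ δ * S := by
      intro d u S hu
      rw [norm_mul, Complex.norm_real, Real.norm_eq_abs]
      exact mul_le_mul (hτ d) hu (norm_nonneg _) hδ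
    rw [e]
    have h1 := hm b _ _ (hR b₀ c)
    have h2 := hm c _ _ (hR b b₀)
    have h3 := hm b _ _ (hm c _ _ (hR b₀ b₀))
    have h4 : δ * (δ * R) ≤ δ * R :=
      mul_le_mul_of_nonneg_left (mul_le_of_le_one_left hR0 hδ1) hδ
    have := norm_add₃_le (a := (τ b : ℂ) * (a * ((cv v)ᵀ * G * cv v) b₀ c))
      (b := (τ c : ℂ) * (a * ((cv v)ᵀ * G * cv v) b b₀))
      (c := (τ b : ℂ) * (τ c * (a * ((cv v)ᵀ * G * cv v) b₀ b₀)))
    linarith
  have h0 : 0 ≤ 3 * δ * ‖jetM t H v w‖ := by positivity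
  have e1 : ∀ b c, ‖(jetM t H v w).1 b c‖ ≤ ‖jetM t H v w‖ := fun b c =>
    (norm_le_pi_norm _ c).trans ((norm_le_pi_norm _ b).trans (norm_fst_le _))
  have e2 : ∀ b c, ‖(jetM t H v w).2.1 b c‖ ≤ ‖jetM t H v w‖ := fun b c =>
    (norm_le_pi_norm _ c).trans ((norm_le_pi_norm _ b).trans
      ((norm_fst_le _).trans (norm_snd_le _)))
  refine norm_prod_le_iff.2 ⟨?_, norm_prod_le_iff.2 ⟨?_, ?_⟩⟩
  · exact (pi_norm_le_iff_of_nonneg h0).2 fun b => (pi_norm_le_iff_of_nonneg h0).2 fun c =>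
      key _ _ _ e1 b c
  · exact (pi_norm_le_iff_of_nonneg h0).2 fun b => (pi_norm_le_iff_of_nonneg h0).2 fun c =>
      key _ _ _ e2 b c
  · change ‖(t : ℂ) * (res H (t * w)).trace - t * (res H (t * w)).trace‖ ≤ _
    rw [sub_self, norm_zero]
    exact h0

end gen

/-- In an eigenbasis the matrix jet is the jet of the Gaussian model. -/
theorem jetM_eq_jetG {n r : ℕ} {H : Matrix (Fin n) (Fin n) ℝ} (hH : H.IsHermitian) :
    ∃ U : Matrix (Fin n) (Fin n) ℝ, U * Uᵀ = 1 ∧ ∀ (s t : ℝ), 0 < t → s * t = 1 →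
      ∀ (v : Fin r × Fin n → ℝ) (w : ℂ), 0 < w.im →
        jetM t H v w = jetG ((fun i => s * evs H i, 0) : Conf n) (rotV U v) w := by
  have hs : H.IsSymm := Matrix.IsSymm.ext fun i j => herm_symm hH j i
  obtain ⟨U, h1, h2, h3⟩ := exists_eigenbasis hs
  refine ⟨U, h1, fun s t ht hst v w hw => ?_⟩
  have hz := im_mul_ne ht hw
  have hstC : (s : ℂ) * t = 1 := by exact_mod_cast hst
  have key : ∀ i, (((s * evs H i : ℝ) : ℂ) - w)⁻¹ = t * ((evs H i : ℂ) - t * w)⁻¹ := by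
    intro i
    have h4 := real_sub_ne hz (evs H i)
    have h5 : ((s * evs H i : ℝ) : ℂ) - w = s * ((evs H i : ℂ) - t * w) := by
      push_cast
      linear_combination w * hstC
    rw [h5, mul_inv, ← eq_inv_of_mul_eq_one_right hstC]
  refine Prod.ext ?_ (Prod.ext ?_ ?_)
  · funext b c
    have := cv_form U (fun i => ((evs H i : ℂ) - t * w)⁻¹)
      (fun x y => by simpa only [div_eq_mul_inv] using res_eq_sum h2 h1 h3 hz x y) v b c
    simp only [jetM, jetG, jetV, this, rotV, ite_self, Complex.ofReal_zero, sub_zero,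
      div_eq_mul_inv, key, Finset.mul_sum (a := (t : ℂ))]
    exact Finset.sum_congr rfl fun i _ => by ring
  · funext b c
    have := cv_form U (fun i => (((evs H i : ℂ) - t * w) ^ 2)⁻¹)
      (fun x y => by simpa only [div_eq_mul_inv] using res_sq_eq_sum h2 h1 h3 hz x y) v b c
    simp only [jetM, jetG, jetV, this, rotV, div_eq_mul_inv, ← inv_pow, key,
      Finset.mul_sum (a := (t : ℂ) ^ 2)]
    exact Finset.sum_congr rfl fun i _ => by ring
  · simp only [jetM, jetG, jetV, sF, trace_res_evs hs hz, Complex.ofReal_zero, sub_zero, one_div,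
      key, Finset.mul_sum]

theorem mob_eq_of {r : ℕ} {q : Quad r} {Z : Jet r} {K N N' : Matrix (Fin r) (Fin r) ℂ}
    (hK : jfac q Z * K = 1) (hN : N * jfac q Z = cx q.A * Matrix.of Z.1 + cx q.B)
    (hN' : (jfac q Z)ᵀ * N' * jfac q Z = Matrix.of Z.2.1) :
    mob q Z = (Matrix.of.symm N, Matrix.of.symm N',
      Z.2.2 - Matrix.trace (K * cx q.C * Matrix.of Z.2.1)) := by
  have h1 : (jfac q Z)⁻¹ = K := Matrix.inv_eq_right_inv hK
  have h2 : Kᵀ * (jfac q Z)ᵀ = 1 := by rw [← Matrix.transpose_mul, hK, Matrix.transpose_one]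
  unfold mob
  rw [h1, ← hN, Matrix.mul_assoc, hK, Matrix.mul_one]
  congr 3
  rw [← hN']
  calc Kᵀ * ((jfac q Z)ᵀ * N' * jfac q Z) * K = (Kᵀ * (jfac q Z)ᵀ) * N' * (jfac q Z * K) := by
        simp only [Matrix.mul_assoc]
    _ = N' := by rw [h2, hK, Matrix.one_mul, Matrix.mul_one]

section pivot
variable {m r : ℕ}

/-- channel `b₀` is `ρ e₀`, the other channels have their zeroth coordinate removed -/
def chV (ρ : ℝ) (b₀ : Fin r) (v : Fin r × Fin (m + 1) → ℝ) : Fin r × Fin (m + 1) → ℝ :=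
  fun q => if q.1 = b₀ then (if q.2 = 0 then ρ else 0) else (if q.2 = 0 then 0 else v q)

/-- channels on the minor: channel `b₀` is the removed column -/
def chW (ρ : ℝ) (b₀ : Fin r) (h : Fin m → ℝ) (v : Fin r × Fin (m + 1) → ℝ) : Fin r × Fin m → ℝ :=
  fun q => if q.1 = b₀ then ρ * h q.2 else v (q.1, q.2.succ)

/-- a jet supported on the entry `(b₀, b₀)` -/
def shJ (b₀ : Fin r) (α β : ℂ) : Jet r :=
  (fun b c => if b = b₀ ∧ c = b₀ then α else 0, fun b c => if b = b₀ ∧ c = b₀ then β else 0, 0)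

/-- the pivot in channel `b₀` -/
def rot1 (b₀ : Fin r) : Quad r := rotQ fun b => if b = b₀ then -(Real.pi / 2) else 0

theorem rot1_A (b₀ : Fin r) :
    cx (rot1 b₀).A = diagonal fun b => if b = b₀ then (0 : ℂ) else 1 := by
  ext b c
  simp only [rot1, rotQ, cx_apply, Matrix.diagonal_apply]
  split_ifs <;> simp

theorem rot1_D (b₀ : Fin r) :
    cx (rot1 b₀).D = diagonal fun b => if b = b₀ then (0 : ℂ) else 1 := rot1_A b₀

theorem rot1_B (b₀ : Fin r) :
    cx (rot1 b₀).B = diagonal fun b => if b = b₀ then -(Real.pi : ℂ) else 0 := by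
  ext b c
  simp only [rot1, rotQ, cx_apply, Matrix.diagonal_apply]
  split_ifs <;> simp

theorem rot1_C (b₀ : Fin r) :
    cx (rot1 b₀).C = diagonal fun b => if b = b₀ then (Real.pi : ℂ)⁻¹ else 0 := by
  ext b c
  simp only [rot1, rotQ, cx_apply, Matrix.diagonal_apply]
  split_ifs <;> simp [neg_div]

theorem jfac_rot1 (b₀ : Fin r) (Z : Jet r) (b c : Fin r) : jfac (rot1 b₀) Z b c =
    if b = b₀ then (Real.pi : ℂ)⁻¹ * Z.1 b₀ c else if b = c then 1 else 0 := by
  rw [jfac, rot1_C, rot1_D, Matrix.add_apply, Matrix.diagonal_mul, Matrix.diagonal_apply,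
    Matrix.of_apply]
  by_cases h : b = b₀
  · subst h; simp
  · simp [h]

theorem pivot {H : Matrix (Fin (m + 1)) (Fin (m + 1)) ℝ} (hH : H.IsHermitian) (b₀ : Fin r)
    {t ρ : ℝ} (ht : 0 < t) (hρ : ρ * ρ * t = Real.pi) (v : Fin r × Fin (m + 1) → ℝ) {w : ℂ}
    (hw : 0 < w.im) :
    jetM t H (chV ρ b₀ v) w = mob (rot1 b₀)
      (jetM t (H.submatrix Fin.succ Fin.succ) (chW ρ b₀ (fun a => H a.succ 0) v) w +
        shJ b₀ (Real.pi * (t * w - H 0 0)) (Real.pi * t)) := by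
  have hz := im_mul_ne ht hw
  have hH₀ : (H.submatrix Fin.succ Fin.succ).IsHermitian := hH.submatrix _
  have hπ : (Real.pi : ℂ) ≠ 0 := by exact_mod_cast Real.pi_ne_zero
  have hρC : (ρ : ℂ) * ρ * t = Real.pi := by exact_mod_cast hρ
  have hρ0 : (ρ : ℂ) ≠ 0 := fun h => hπ (by rw [← hρC, h]; ring)
  set z : ℂ := t * w with hzdef
  set G₀ := res (H.submatrix Fin.succ Fin.succ) z with hG₀
  set G := res H z with hG
  set W := cv (chW ρ b₀ (fun a => H a.succ 0) v) with hW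
  set V := cv (chV ρ b₀ v) with hV
  set Z := jetM t (H.submatrix Fin.succ Fin.succ) (chW ρ b₀ (fun a => H a.succ 0) v) w +
    shJ b₀ (Real.pi * (z - H 0 0)) (Real.pi * t) with hZ
  have Z1 : ∀ b c, Z.1 b c = t * (∑ a, W a b * (G₀ * W) a c) +
      if b = b₀ ∧ c = b₀ then Real.pi * (z - H 0 0) else 0 := fun b c => by
    change t * (Wᵀ * G₀ * W) b c + _ = _
    rw [Matrix.mul_assoc, Matrix.mul_apply]
    rfl
  have G₀T : G₀ᵀ = G₀ := by
    ext a b; exact res_symm hH₀ hz b a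
  have GT : Gᵀ = G := by
    ext a b; exact res_symm hH hz b a
  have Z2 : ∀ b c, Z.2.1 b c = t ^ 2 * (∑ a, (G₀ * W) a b * (G₀ * W) a c) +
      if b = b₀ ∧ c = b₀ then (Real.pi : ℂ) * t else 0 := fun b c => by
    change t ^ 2 * (Wᵀ * (G₀ * G₀) * W) b c + _ = _
    have : Wᵀ * (G₀ * G₀) * W = (G₀ * W)ᵀ * (G₀ * W) := by
      rw [Matrix.transpose_mul, G₀T]; simp only [Matrix.mul_assoc]
    rw [this, Matrix.mul_apply]
    rfl
  have Z3 : Z.2.2 = t * G₀.trace := by
    change t * G₀.trace + 0 = _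
    rw [add_zero]
  have W0 : ∀ a, W a b₀ = ρ * H a.succ 0 := fun a => by simp [hW, chW]
  have W1 : ∀ a b, b ≠ b₀ → W a b = v (b, a.succ) := fun a b hb => by simp [hW, chW, hb]
  have V0 : ∀ b, V 0 b = if b = b₀ then (ρ : ℂ) else 0 := fun b => by
    by_cases hb : b = b₀ <;> simp [hV, chV, hb]
  have V1 : ∀ (a : Fin m) b, V a.succ b = if b = b₀ then (0 : ℂ) else v (b, a.succ) := fun a b => by
    by_cases hb : b = b₀ <;> simp [hV, chV, hb]
  set j := jfac (rot1 b₀) Z with hj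
  have j0 : ∀ c, j b₀ c = (Real.pi : ℂ)⁻¹ * Z.1 b₀ c := fun c => by rw [hj, jfac_rot1, if_pos rfl]
  have j1 : ∀ b c, b ≠ b₀ → j b c = if b = c then 1 else 0 := fun b c hb => by
    rw [hj, jfac_rot1, if_neg hb]
  let Y : Matrix (Fin (m + 1)) (Fin r) ℂ := Matrix.of fun i b =>
    Fin.cases (motive := fun _ => ℂ) (if b = b₀ then -(ρ : ℂ) else 0) (fun a => (G₀ * W) a b) i
  have Y0 : ∀ b, Y 0 b = if b = b₀ then -(ρ : ℂ) else 0 := fun b => rfl
  have Y1 : ∀ (a : Fin m) b, Y a.succ b = (G₀ * W) a b := fun a b => rfl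
  obtain ⟨S, hS⟩ : ∃ S : Matrix (Fin (m + 1)) (Fin (m + 1)) ℂ, S = cx H - z • 1 := ⟨_, rfl⟩
  obtain ⟨S₀, hS₀⟩ : ∃ S₀ : Matrix (Fin m) (Fin m) ℂ,
    S₀ = cx (H.submatrix Fin.succ Fin.succ) - z • 1 := ⟨_, rfl⟩
  have S00 : S 0 0 = (H 0 0 : ℂ) - z := by simp [hS]
  have S01 : ∀ a : Fin m, S 0 a.succ = (H a.succ 0 : ℂ) := fun a => by
    simp [hS, (Fin.succ_ne_zero a).symm, herm_symm hH 0 a.succ]
  have S10 : ∀ a : Fin m, S a.succ 0 = (H a.succ 0 : ℂ) := fun a => by
    simp [hS]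
  have S11 : ∀ a a' : Fin m, S a.succ a'.succ = S₀ a a' := fun a a' => by
    simp [hS, hS₀, Matrix.one_apply]
  have hinv₀ : S₀ * G₀ = 1 := hS₀ ▸ sub_mul_res hH₀ hz
  have hinv : G * S = 1 := hS ▸ res_mul_sub hH hz
  have hVj : ∀ (a : Fin m) b, (V * j) a.succ b = if b = b₀ then (0 : ℂ) else v (b, a.succ) := by
    intro a b
    rw [Matrix.mul_apply]
    by_cases hb : b = b₀
    · rw [if_pos hb]
      refine Finset.sum_eq_zero fun c _ => ?_
      by_cases hc : c = b₀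
      · rw [V1, if_pos hc, zero_mul]
      · rw [j1 c b hc, if_neg (fun h => hc (h.trans hb)), mul_zero]
    · rw [if_neg hb, Finset.sum_eq_single b]
      · rw [V1, if_neg hb, j1 b b hb, if_pos rfl, mul_one]
      · intro c _ hcb
        by_cases hc : c = b₀
        · rw [V1, if_pos hc, zero_mul]
        · rw [j1 c b hc, if_neg hcb, mul_zero]
      · intro h; exact absurd (Finset.mem_univ _) h
  have claim : S * Y = V * j := by
    ext i b
    refine Fin.cases ?_ (fun a => ?_) i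
    · rw [Matrix.mul_apply, Fin.sum_univ_succ, S00, Y0, Matrix.mul_apply,
        Finset.sum_eq_single b₀ (fun c _ hc => by rw [V0, if_neg hc, zero_mul])
          (fun h => absurd (Finset.mem_univ _) h), V0, if_pos rfl, j0, Z1]
      simp only [S01, Y1, W0, true_and, mul_assoc, ← Finset.mul_sum]
      set A := ∑ a : Fin m, (H a.succ 0 : ℂ) * (G₀ * W) a b
      have e : (ρ : ℂ) * ((Real.pi : ℂ)⁻¹ * (t * (ρ * A))) = A := by
        rw [← hρC]
        have : (t : ℂ) ≠ 0 := by exact_mod_cast ht.ne'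
        field_simp
      rw [mul_add, mul_add, e]
      split_ifs
      · field_simp
        ring
      · simp
    · rw [hVj, Matrix.mul_apply, Fin.sum_univ_succ, S10, Y0]
      simp only [S11, Y1]
      rw [← Matrix.mul_apply, ← Matrix.mul_assoc, hinv₀, Matrix.one_mul]
      by_cases hb : b = b₀
      · rw [if_pos hb, if_pos hb, hb, W0]; ring
      · rw [if_neg hb, if_neg hb, W1 a b hb]; ring
  have hY : G * V * j = Y := by
    rw [Matrix.mul_assoc, ← claim, ← Matrix.mul_assoc, hinv, Matrix.one_mul]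
  have hcol : ∀ i, Y i b₀ = G i 0 * ρ * ((Real.pi : ℂ)⁻¹ * Z.1 b₀ b₀) := by
    intro i
    rw [← hY, Matrix.mul_apply, Finset.sum_eq_single b₀
      (fun c _ hc => by rw [j1 c b₀ hc, if_neg hc, mul_zero])
      (fun h => absurd (Finset.mem_univ _) h), j0, Matrix.mul_apply, Fin.sum_univ_succ, V0,
      if_pos rfl]
    simp [V1]
  have hM : Z.1 b₀ b₀ ≠ 0 := fun h => by
    have := hcol 0
    rw [Y0, if_pos rfl, h, mul_zero, mul_zero, neg_eq_zero] at this
    exact hρ0 this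
  let K : Matrix (Fin r) (Fin r) ℂ := Matrix.of fun a c =>
    if a = b₀ then (if c = b₀ then Real.pi / Z.1 b₀ b₀ else -Z.1 b₀ c / Z.1 b₀ b₀)
    else if a = c then 1 else 0
  have K0 : ∀ c, K b₀ c = if c = b₀ then Real.pi / Z.1 b₀ b₀ else -Z.1 b₀ c / Z.1 b₀ b₀ :=
    fun c => if_pos rfl
  have K1 : ∀ a c, a ≠ b₀ → K a c = if a = c then 1 else 0 := fun a c ha => if_neg ha
  have hK : j * K = 1 := by
    ext b c
    rw [Matrix.mul_apply, Matrix.one_apply]
    by_cases hb : b = b₀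
    · subst hb
      rw [← Finset.add_sum_erase _ _ (Finset.mem_univ b), K0, j0]
      by_cases hc : c = b
      · subst hc
        rw [if_pos rfl, if_pos rfl, Finset.sum_eq_zero fun a ha => by
          rw [K1 a c (Finset.ne_of_mem_erase ha), if_neg (Finset.ne_of_mem_erase ha), mul_zero]]
        field_simp
        ring
      · rw [if_neg hc, if_neg (Ne.symm hc), Finset.sum_eq_single c
          (fun a ha hac => by rw [K1 a c (Finset.ne_of_mem_erase ha), if_neg hac, mul_zero])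
          (fun h => absurd (Finset.mem_erase.2 ⟨hc, Finset.mem_univ _⟩) h), K1 c c hc, if_pos rfl,
          j0]
        field_simp
        ring
    · rw [Finset.sum_eq_single b (fun a _ hab => by rw [j1 b a hb, if_neg (Ne.symm hab), zero_mul])
        (fun h => absurd (Finset.mem_univ _) h), j1 b b hb, if_pos rfl, one_mul, K1 b c hb]
  have hYY : ∀ b c, (t : ℂ) ^ 2 * ∑ i, Y i b * Y i c = Z.2.1 b c := by
    intro b c
    rw [Z2, Fin.sum_univ_succ, Y0, Y0, mul_add, add_comm]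
    simp only [Y1]
    congr 1
    by_cases hb : b = b₀ <;> by_cases hc : c = b₀ <;> simp [hb, hc]
    rw [← hρC]; ring
  have hN : ((t : ℂ) • (Vᵀ * G * V)) * j = cx (rot1 b₀).A * Matrix.of Z.1 + cx (rot1 b₀).B := by
    rw [Matrix.smul_mul, Matrix.mul_assoc Vᵀ, Matrix.mul_assoc Vᵀ, hY, rot1_A, rot1_B]
    ext b c
    rw [Matrix.smul_apply, Matrix.mul_apply, Fin.sum_univ_succ, Matrix.add_apply,
      Matrix.diagonal_mul, Matrix.diagonal_apply, Matrix.of_apply, smul_eq_mul]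
    simp only [Matrix.transpose_apply, V0, V1, Y0, Y1]
    by_cases hb : b = b₀
    · subst hb
      by_cases hc : c = b
      · subst hc
        simp only [if_true, zero_mul, Finset.sum_const_zero, add_zero, zero_add]
        rw [← hρC]; ring
      · simp [hc, Ne.symm hc]
    · rw [Z1]
      simp [hb, W1 _ b hb]
  have hN' : jᵀ * (((t : ℂ) ^ 2) • (Vᵀ * (G * G) * V)) * j = Matrix.of Z.2.1 := by
    have e : jᵀ * (Vᵀ * (G * G) * V) * j = Yᵀ * Y := by
      rw [← hY, Matrix.transpose_mul, Matrix.transpose_mul, GT]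
      simp only [Matrix.mul_assoc]
    rw [Matrix.mul_smul, Matrix.smul_mul, e]
    ext b c
    rw [Matrix.smul_apply, Matrix.mul_apply, smul_eq_mul, Matrix.of_apply, ← hYY]
    rfl
  have htr : Matrix.trace (K * cx (rot1 b₀).C * Matrix.of Z.2.1) = Z.2.1 b₀ b₀ / Z.1 b₀ b₀ := by
    rw [rot1_C, Matrix.trace, Finset.sum_eq_single b₀ _ (fun h => absurd (Finset.mem_univ _) h)]
    · rw [Matrix.diag_apply, Matrix.mul_apply, Finset.sum_eq_single b₀
        (fun c _ hc => by rw [Matrix.mul_diagonal, if_neg hc, mul_zero, zero_mul])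
        (fun h => absurd (Finset.mem_univ _) h), Matrix.mul_diagonal, if_pos rfl, K0, if_pos rfl,
        Matrix.of_apply]
      field_simp
    · intro a _ ha
      rw [Matrix.diag_apply, Matrix.mul_apply]
      refine Finset.sum_eq_zero fun c _ => ?_
      rw [Matrix.mul_diagonal]
      by_cases hc : c = b₀
      · rw [K1 a c ha, if_neg (fun h => ha (h.trans hc)), zero_mul, zero_mul]
      · rw [if_neg hc, mul_zero, zero_mul]
  have hdiag : ∀ k : Fin m, G k.succ k.succ = G₀ k k - t * (Y k.succ b₀ * Y k.succ b₀) / Z.1 b₀ b₀ := by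
    intro k
    let y : Fin (m + 1) → ℂ := fun i => Fin.cases (motive := fun _ => ℂ) 0 (fun a => G₀ a k) i
    have y0 : y 0 = 0 := rfl
    have y1 : ∀ a : Fin m, y a.succ = G₀ a k := fun a => rfl
    have h1 : G *ᵥ (S *ᵥ y) = y := by
      rw [Matrix.mulVec_mulVec, hinv, Matrix.one_mulVec]
    have h2 : (S *ᵥ y) 0 = Y k.succ b₀ / ρ := by
      rw [Matrix.mulVec, dotProduct, Fin.sum_univ_succ, y0, mul_zero, zero_add, Y1,
        Matrix.mul_apply, eq_div_iff hρ0, Finset.sum_mul]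
      refine Finset.sum_congr rfl fun a _ => ?_
      rw [S01, y1, W0, show G₀ a k = G₀ k a from res_symm hH₀ hz a k]
      ring
    have h3 : ∀ a : Fin m, (S *ᵥ y) a.succ =
        if a = k then 1 else 0 := by
      intro a
      rw [Matrix.mulVec, dotProduct, Fin.sum_univ_succ, y0, mul_zero, zero_add]
      simp only [S11, y1]
      rw [← Matrix.mul_apply, hinv₀, Matrix.one_apply]
    have h4 := congrFun h1 k.succ
    rw [y1, Matrix.mulVec, dotProduct, Fin.sum_univ_succ, h2] at h4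
    simp only [h3, mul_ite, mul_one, mul_zero, Finset.sum_ite_eq', Finset.mem_univ, if_true] at h4
    have h5 := hcol k.succ
    rw [← h4, eq_sub_iff_add_eq, add_comm]
    congr 1
    have : G k.succ 0 = Y k.succ b₀ * Real.pi / (ρ * Z.1 b₀ b₀) := by
      rw [h5]; field_simp
    rw [this, ← hρC]
    field_simp
  have h00 : G 0 0 = -(t * (Y 0 b₀ * Y 0 b₀) / Z.1 b₀ b₀) := by
    have h5 := hcol 0
    have : G 0 0 = Y 0 b₀ * Real.pi / (ρ * Z.1 b₀ b₀) := by
      rw [h5]; field_simp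
    rw [this, Y0, if_pos rfl, ← hρC]
    field_simp
  rw [mob_eq_of hK hN hN', htr, Z3, ← hYY]
  refine Prod.ext rfl (Prod.ext rfl ?_)
  change t * G.trace = _
  rw [Matrix.trace, Fin.sum_univ_succ, Fin.sum_univ_succ, Matrix.trace]
  simp only [Matrix.diag_apply, h00, hdiag, Finset.sum_sub_distrib, ← Finset.sum_div,
    ← Finset.mul_sum]
  ring

end pivot

end Crest.Agent.R166
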