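import Crest.Agent.R166.E1
import Crest.Agent.R166.E.Goe3

/-!
# Row 166, part E: from the Gaussian model over the GOE to matrix jets with one channel `√n e₀`
-/

set_option autoImplicit false
open MeasureTheory ProbabilityTheory Filter Topology Matrix
open Crest.ProbabilityR.RandomMatrix

noncomputable section
namespace Crest.Agent.R166

theorem goe_mp_integral {α β : Type*} [MeasurableSpace α] [MeasurableSpace β] {μ : Measure α}
    {ν : Measure β} {f : α → β} (h : MeasurePreserving f μ ν) {F : β → ℝ} (hF : Measurable F) :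
    ∫ x, F (f x) ∂μ = ∫ y, F y ∂ν := by
  rw [← h.map_eq, integral_map h.measurable.aemeasurable hF.aestronglyMeasurable]

/-- relative uniform continuity of compactly supported functions -/
theorem goe_unif {E : Type*} [NormedAddCommGroup E] {ψ : E → ℝ} (hc : Continuous ψ)
    (hs : HasCompactSupport ψ) {ε : ℝ} (hε : 0 < ε) :
    ∃ δ : ℝ, 0 < δ ∧ δ ≤ 1 ∧ ∀ Z Z' : E, ‖Z' - Z‖ ≤ δ * (1 + ‖Z‖) → |ψ Z' - ψ Z| ≤ ε := by
  obtain ⟨R, hR0, hR⟩ : ∃ R : ℝ, 0 < R ∧ ∀ Z, R < ‖Z‖ → ψ Z = 0 := by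
    obtain ⟨R, hR0, hR⟩ := hs.isCompact.isBounded.subset_closedBall_lt 0 0
    refine ⟨R, hR0, fun Z hZ => ?_⟩
    by_contra h
    have := hR (subset_tsupport _ h)
    rw [mem_closedBall_zero_iff] at this
    linarith
  obtain ⟨δ₁, hδ₁, h1⟩ := Metric.uniformContinuous_iff.1 (hs.uniformContinuous_of_continuous hc) ε hε
  refine ⟨min (1 / 2) (δ₁ / (4 * R + 4)), by positivity, (min_le_left _ _).trans (by norm_num),
    fun Z Z' h => ?_⟩
  by_cases hZ : ‖Z‖ ≤ 2 * R + 1
  · have h2 : ‖Z' - Z‖ ≤ δ₁ / (4 * R + 4) * (2 * R + 2) :=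
      h.trans (mul_le_mul (min_le_right _ _) (by linarith) (by positivity) (by positivity))
    have h3 : δ₁ / (4 * R + 4) * (2 * R + 2) = δ₁ / 2 := by field_simp; ring
    have := h1 (a := Z') (b := Z) (by rw [dist_eq_norm]; linarith)
    rw [Real.dist_eq] at this
    exact this.le
  · push Not at hZ
    have h2 : ‖Z' - Z‖ ≤ 1 / 2 * (1 + ‖Z‖) :=
      h.trans (mul_le_mul_of_nonneg_right (min_le_left _ _) (by positivity))
    have h3 : ‖Z‖ ≤ ‖Z'‖ + ‖Z' - Z‖ := by
      have := norm_sub_le Z' (Z' - Z)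
      rwa [sub_sub_cancel] at this
    rw [hR Z (by linarith), hR Z' (by linarith), sub_self, abs_zero]
    exact hε.le

theorem goe_close {Ω : Type*} [MeasurableSpace Ω] {P : Measure Ω} [IsProbabilityMeasure P]
    {f g T : Ω → ℝ} (hf : Measurable f) (hg : Measurable g) {C δ ε : ℝ} (hδ : 0 < δ) (hε : 0 ≤ ε)
    (bf : ∀ ω, |f ω| ≤ C) (bg : ∀ ω, |g ω| ≤ C) (hT : Integrable T P) (T0 : ∀ ω, 0 ≤ T ω)
    (h : ∀ ω, T ω < δ ^ 2 → |f ω - g ω| ≤ ε) :
    |∫ ω, f ω ∂P - ∫ ω, g ω ∂P| ≤ ε + 2 * C / δ ^ 2 * ∫ ω, T ω ∂P := by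
  have i1 : Integrable f P := goe_integrable_bdd hf.aestronglyMeasurable bf
  have i2 : Integrable g P := goe_integrable_bdd hg.aestronglyMeasurable bg
  rw [← integral_sub i1 i2]
  refine (abs_integral_le_integral_abs).trans ?_
  have i3 : Integrable (fun ω => ε + 2 * C / δ ^ 2 * T ω) P := (integrable_const _).add (hT.const_mul _)
  refine (integral_mono (i1.sub i2).abs i3 fun ω => ?_).trans (le_of_eq ?_)
  · have hC : 0 ≤ C := (abs_nonneg _).trans (bf ω)
    have h0 : 0 ≤ 2 * C / δ ^ 2 * T ω := mul_nonneg (by positivity) (T0 ω)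
    by_cases hω : T ω < δ ^ 2
    · have := h ω hω
      change |f ω - g ω| ≤ ε + 2 * C / δ ^ 2 * T ω
      linarith
    · push Not at hω
      have h1 : 2 * C ≤ 2 * C / δ ^ 2 * T ω := by
        calc 2 * C = 2 * C / δ ^ 2 * δ ^ 2 := by field_simp
          _ ≤ _ := mul_le_mul_of_nonneg_left hω (by positivity)
      have h2 := abs_sub (f ω) (g ω)
      change |f ω - g ω| ≤ ε + 2 * C / δ ^ 2 * T ω
      linarith [bf ω, bg ω]
  · rw [integral_add (integrable_const _) (hT.const_mul _), integral_const, integral_const_mul]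
    simp

theorem goe_sq_coord {I : Type} [Fintype I] (i : I) :
    Integrable (fun g : I → ℝ => g i ^ 2) (gpi I) ∧ ∫ g, g i ^ 2 ∂gpi I = 1 := by
  have h := measurePreserving_eval (fun _ : I => gaussianReal 0 1) i
  refine ⟨h.integrable_comp_of_integrable (g := fun x : ℝ => x ^ 2)
    (memLp_id_gaussianReal 2).integrable_sq, ?_⟩
  refine (goe_mp_integral h (F := fun x : ℝ => x ^ 2) (by fun_prop)).trans ?_
  have h2 := variance_fun_id_gaussianReal (μ := 0) (v := 1)
  rw [variance_eq_integral measurable_id'.aemeasurable, integral_id_gaussianReal] at h2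
  simpa using h2

theorem mp_elim (I J : Type) [Fintype I] [Fintype J] :
    MeasurePreserving (fun ω : (I → ℝ) × (J → ℝ) => Sum.elim ω.1 ω.2) ((gpi I).prod (gpi J))
      (gpi (I ⊕ J)) :=
  measurePreserving_sumPiEquivProdPi_symm (X := fun _ : I ⊕ J => ℝ) fun _ => gaussianReal 0 1

theorem mp_rotV {ι : Type} [Fintype ι] [DecidableEq ι] {r : ℕ} {O : Matrix ι ι ℝ}
    (hO : O * Oᵀ = 1) : MeasurePreserving (rotV (r := r) O) (gpi (Fin r × ι)) (gpi (Fin r × ι)) := by
  have h : ∀ a b, ∑ i, O a i * O b i = if a = b then 1 else 0 := fun a b => by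
    have := congrFun (congrFun hO a) b
    simpa [Matrix.mul_apply, Matrix.one_apply] using this
  have h1 := gpi_orth (I := Fin r × ι) (J := Fin r × ι)
    (fun q p => if p.1 = q.1 then O q.2 p.2 else 0) (by
      rintro ⟨a1, a2⟩ ⟨b1, b2⟩
      rw [Fintype.sum_prod_type]
      by_cases h1 : a1 = b1
      · subst h1
        rw [Finset.sum_eq_single a1 (fun x _ hx => by simp [hx]) (by simp)]
        simp [h]
      · rw [if_neg (fun e => h1 (congrArg Prod.fst e))]
        refine Finset.sum_eq_zero fun x _ => Finset.sum_eq_zero fun y _ => ?_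
        by_cases h2 : x = a1
        · simp [h2, h1]
        · simp [h2])
  convert h1 using 1
  funext v q
  rw [Fintype.sum_prod_type, Finset.sum_eq_single q.1 (fun x _ hx => by simp [hx]) (by simp)]
  simp [rotV]

theorem exists_house {m : ℕ} (u : Fin (m + 1) → ℝ) :
    ∃ O : Matrix (Fin (m + 1)) (Fin (m + 1)) ℝ, O * Oᵀ = 1 ∧
      ∀ i, ∑ x, O i x * u x = if i = 0 then √(∑ x, u x ^ 2) else 0 := by
  set ρ := √(∑ x, u x ^ 2) with hρ
  have hρ2 : ρ * ρ = ∑ x, u x ^ 2 := Real.mul_self_sqrt (Finset.sum_nonneg fun _ _ => sq_nonneg _)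
  set a : Fin (m + 1) → ℝ := fun i => u i - if i = 0 then ρ else 0 with ha
  by_cases h0 : a ⬝ᵥ a = 0
  · have h1 : a = 0 := dotProduct_self_eq_zero.1 h0
    refine ⟨1, by simp, fun i => ?_⟩
    have := congrFun h1 i
    simp only [ha, Pi.zero_apply, sub_eq_zero] at this
    simp [Matrix.one_apply, this]
  · have hau : a ⬝ᵥ a = 2 * (a ⬝ᵥ u) := by
      simp only [dotProduct, ha, Fin.sum_univ_succ, if_true, Fin.succ_ne_zero, if_false, sub_zero]
      rw [Fin.sum_univ_succ] at hρ2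
      simp only [sq] at hρ2
      linear_combination hρ2
    have ht : 2 / (a ⬝ᵥ a) * (a ⬝ᵥ a) = 2 := div_mul_cancel₀ _ h0
    refine ⟨1 - (2 / (a ⬝ᵥ a)) • Matrix.vecMulVec a a, ?_, fun i => ?_⟩
    · rw [Matrix.transpose_sub, Matrix.transpose_one,
        Matrix.transpose_smul, Matrix.transpose_vecMulVec, sub_mul, one_mul, mul_sub, mul_one,
        smul_mul_smul_comm, Matrix.vecMulVec_mul_vecMulVec, Matrix.vecMulVec_smul, smul_smul,
        mul_assoc, ht, mul_two, add_smul]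
      abel
    · change ((1 - (2 / (a ⬝ᵥ a)) • Matrix.vecMulVec a a) *ᵥ u) i = _
      simp only [Matrix.sub_mulVec, Matrix.one_mulVec, Matrix.smul_mulVec, Matrix.vecMulVec_mulVec,
        Pi.sub_apply, Pi.smul_apply, smul_eq_mul, MulOpposite.smul_eq_mul_unop,
        MulOpposite.unop_op]
      have h2 : a ⬝ᵥ u ≠ 0 := fun h => h0 (by rw [hau, h, mul_zero])
      have h3 : 2 / (a ⬝ᵥ a) * (a i * (a ⬝ᵥ u)) = a i := by rw [hau]; field_simp
      rw [h3, ha]
      ring

/-- the product space of a Gaussian matrix and Gaussian channels -/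
abbrev GOm (n r : ℕ) : Type := (Fin n × Fin n → ℝ) × (Fin r × Fin n → ℝ)

/-- its law -/
abbrev GP (n r : ℕ) : Measure (GOm n r) := (gpi (Fin n × Fin n)).prod (gpi (Fin r × Fin n))

section
variable {r k : ℕ}

/-- replace channel `b₀` -/
def setC {n : ℕ} (b₀ : Fin r) (u : Fin n → ℝ) (v : Fin r × Fin n → ℝ) : Fin r × Fin n → ℝ :=
  fun q => if q.1 = b₀ then u q.2 else v q

theorem continuous_setC {X : Type*} [TopologicalSpace X] {n : ℕ} (b₀ : Fin r)
    {u : X → Fin n → ℝ} {v : X → Fin r × Fin n → ℝ} (hu : Continuous u) (hv : Continuous v) :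
    Continuous fun x => setC b₀ (u x) (v x) := by
  refine continuous_pi fun q => ?_
  unfold setC
  split_ifs <;> fun_prop

theorem mp_setC (n : ℕ) (b₀ : Fin r) :
    MeasurePreserving (fun p : (Fin r × Fin n → ℝ) × (Fin n → ℝ) => setC b₀ p.2 p.1)
      ((gpi (Fin r × Fin n)).prod (gpi (Fin n))) (gpi (Fin r × Fin n)) := by
  have h := (mp_gpi_inj (fun q : Fin r × Fin n =>
      if q.1 = b₀ then (Sum.inr q.2 : (Fin r × Fin n) ⊕ Fin n) else Sum.inl q) (by
    rintro ⟨a1, a2⟩ ⟨b1, b2⟩ h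
    by_cases h1 : a1 = b₀ <;> by_cases h2 : b1 = b₀ <;> simp_all)).comp (mp_elim _ _)
  convert h using 1
  funext p q
  simp only [setC, Function.comp]
  split_ifs <;> rfl

theorem goe_resample {n : ℕ} (b₀ : Fin r) {g : GOm n r → ℝ} (hg : Measurable g) {C : ℝ}
    (hb : ∀ ω, |g ω| ≤ C) :
    ∫ ω, g ω ∂GP n r = ∫ u, ∫ ω, g (ω.1, setC b₀ u ω.2) ∂GP n r ∂gpi (Fin n) := by
  have h := ((MeasurePreserving.id (gpi (Fin n × Fin n))).prod (mp_setC n b₀)).comp
    (measurePreserving_prodAssoc (gpi (Fin n × Fin n)) (gpi (Fin r × Fin n)) (gpi (Fin n)))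
  rw [← goe_mp_integral h hg]
  exact integral_prod_symm _
    (goe_integrable_bdd (hg.comp h.measurable).aestronglyMeasurable fun ω => hb _)

/-- the aligned channel vector -/
def alg {m : ℕ} (u : Fin (m + 1) → ℝ) : Fin (m + 1) → ℝ :=
  fun i => if i = 0 then √(∑ x, u x ^ 2) else 0

theorem continuous_alg {m : ℕ} : Continuous (alg (m := m)) := by
  refine continuous_pi fun i => ?_
  unfold alg
  split_ifs <;> fun_prop

theorem goe_align {m : ℕ} (b₀ : Fin r) {f : GOm (m + 1) r → ℝ} (hf : Continuous f) {C : ℝ}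
    (hb : ∀ ω, |f ω| ≤ C)
    (hinv : ∀ O : Matrix (Fin (m + 1)) (Fin (m + 1)) ℝ, O * Oᵀ = 1 →
      ∀ ω : GOm (m + 1) r, f (conjX O ω.1, rotV O ω.2) = f ω) :
    ∫ ω, f ω ∂GP (m + 1) r =
      ∫ ω, f (ω.1, setC b₀ (alg fun x => ω.2 (b₀, x)) ω.2) ∂GP (m + 1) r := by
  have hc : Continuous fun ω : GOm (m + 1) r => f (ω.1, setC b₀ (alg fun x => ω.2 (b₀, x)) ω.2) :=
    hf.comp (continuous_fst.prodMk (continuous_setC b₀ (continuous_alg.comp (by fun_prop))
      continuous_snd))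
  rw [goe_resample b₀ hf.measurable hb, goe_resample b₀ hc.measurable fun ω => hb _]
  refine integral_congr_ae (Eventually.of_forall fun u => ?_)
  obtain ⟨O, hO, hu⟩ := exists_house u
  have e1 : ∀ v : Fin r × Fin (m + 1) → ℝ,
      setC b₀ (alg fun x => setC b₀ u v (b₀, x)) (setC b₀ u v) = setC b₀ (alg u) v := by
    intro v
    funext q
    by_cases hq : q.1 = b₀ <;> simp [setC, hq]
  have e2 : ∀ v : Fin r × Fin (m + 1) → ℝ,
      rotV O (setC b₀ u v) = setC b₀ (alg u) (rotV O v) := by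
    intro v
    funext q
    by_cases hq : q.1 = b₀
    · simp only [setC, rotV, hq, if_true, hu, alg]
    · simp only [setC, rotV, hq, if_false]
  have hc2 : Continuous fun ω : GOm (m + 1) r => f (ω.1, setC b₀ (alg u) ω.2) :=
    hf.comp (continuous_fst.prodMk (continuous_setC b₀ continuous_const continuous_snd))
  simp only [e1]
  rw [← goe_mp_integral ((mp_conjX hO).prod (mp_rotV (r := r) hO)) hc2.measurable]
  refine integral_congr_ae (Eventually.of_forall fun ω => ?_)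
  change f (ω.1, setC b₀ u ω.2) = f (conjX O ω.1, setC b₀ (alg u) (rotV O ω.2))
  rw [← e2, hinv O hO (ω.1, setC b₀ u ω.2)]

theorem EG_goe {n : ℕ} (hn : 0 < n) {w : Fin k → ℂ} (hw : ∀ j, 0 < (w j).im)
    {ψ : (Fin k → Jet r) → ℝ} (hc : Continuous ψ) {C : ℝ} (hb : ∀ Z, |ψ Z| ≤ C) :
    EG (goeFam n) r w ψ =
      ∫ ω, ψ (fun j => jetM (Real.pi / n) (symG (gc n) ω.1) ω.2 (w j)) ∂GP n r := by
  have hnR : (0 : ℝ) < n := by exact_mod_cast hn
  have ht : 0 < Real.pi / n := div_pos Real.pi_pos hnR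
  have c1 : Continuous fun q : Conf n × (Fin r × Fin n → ℝ) => ψ fun j => jetG q.1 q.2 (w j) :=
    hc.comp (continuous_pi fun j => continuous_jetG (hw j))
  have c2 : Continuous fun ω : GOm n r =>
      ψ (fun j => jetM (Real.pi / n) (symG (gc n) ω.1) ω.2 (w j)) :=
    hc.comp (continuous_pi fun j => continuous_jetM ht
      (fun a b => (continuous_symG _ a b).comp continuous_fst) (fun ω => symG_herm _ _)
      continuous_snd (hw j))
  rw [EG, goeFam_eq, integral_map (goe_cont' n).measurable.aemeasurable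
    (c1.stronglyMeasurable.integral_prod_right').aestronglyMeasurable,
    integral_prod _ (goe_integrable_bdd c2.aestronglyMeasurable fun ω => hb _)]
  refine integral_congr_ae (Eventually.of_forall fun X => ?_)
  obtain ⟨U, hU, h⟩ := jetM_eq_jetG (r := r) (symG_herm (gc n) X)
  have hst : n / Real.pi * (Real.pi / n) = 1 := by
    have := Real.pi_pos
    field_simp
  refine (goe_mp_integral (mp_rotV (r := r) hU) (F := fun y => ψ fun j =>
    jetG ((fun i => n / Real.pi * evs (symG (gc n) X) i, 0) : Conf n) y (w j))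
    (c1.comp (continuous_const.prodMk continuous_id)).measurable).symm.trans ?_
  refine integral_congr_ae (Eventually.of_forall fun v => ?_)
  simp only [h _ _ ht hst v _ (hw _)]

/-- the GOE matrix of an uncurried disorder -/
def upG {n : ℕ} (Y : Fin n × Fin n → ℝ) : Matrix (Fin n) (Fin n) ℝ := goeMatrix fun i j => Y (i, j)

theorem continuous_chV {m : ℕ} (ρ : ℝ) (b₀ : Fin r) : Continuous (chV (m := m) ρ b₀) := by
  refine continuous_pi fun q => ?_
  unfold chV
  split_ifs <;> fun_prop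

/-- expectation with channel `b₀` equal to `√n e₀` -/
def AG (m : ℕ) (b₀ : Fin r) (w : Fin k → ℂ) (ψ : (Fin k → Jet r) → ℝ) : ℝ :=
  ∫ ω, ψ (fun j => jetM (Real.pi / (m + 1 : ℕ)) (upG ω.1) (chV √(m + 1 : ℕ) b₀ ω.2) (w j))
    ∂GP (m + 1) r

theorem AG_eq (m : ℕ) (b₀ : Fin r) {w : Fin k → ℂ} (hw : ∀ j, 0 < (w j).im)
    {ψ : (Fin k → Jet r) → ℝ} (hc : Continuous ψ) :
    AG m b₀ w ψ = ∫ ω, ψ (fun j => jetM (Real.pi / (m + 1 : ℕ)) (symG (gc (m + 1)) ω.1)
      (chV √(m + 1 : ℕ) b₀ ω.2) (w j)) ∂GP (m + 1) r := by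
  have ht : 0 < Real.pi / (m + 1 : ℕ) := div_pos Real.pi_pos (by positivity)
  have c : Continuous fun ω : GOEDisorder (m + 1) × (Fin r × Fin (m + 1) → ℝ) =>
      ψ (fun j => jetM (Real.pi / (m + 1 : ℕ)) (goeMatrix ω.1) (chV √(m + 1 : ℕ) b₀ ω.2) (w j)) :=
    hc.comp (continuous_pi fun j => continuous_jetM ht
      (fun a b => (continuous_goeMatrix a b).comp continuous_fst) (fun ω => goeMatrix_herm _)
      ((continuous_chV _ b₀).comp continuous_snd) (hw j))
  have h1 := goe_mp_integral ((mp_curry (m + 1)).prod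
    (MeasurePreserving.id (gpi (Fin r × Fin (m + 1))))) c.measurable
  have h2 := goe_mp_integral ((mp_goeT (m + 1)).prod
    (MeasurePreserving.id (gpi (Fin r × Fin (m + 1))))) c.measurable
  simp only [Prod.map_fst, Prod.map_snd, id, goeMatrix_goeT] at h1 h2
  exact h1.trans h2.symm

theorem goe_tau {m : ℕ} (b₀ b : Fin r) :
    Integrable (fun v : Fin r × Fin (m + 1) → ℝ =>
      (if b = b₀ then ((∑ x, v (b₀, x) ^ 2) / (m + 1 : ℕ) - 1) ^ 2 else v (b, 0) ^ 2 / (m + 1 : ℕ)))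
      (gpi _) ∧
    ∫ v : Fin r × Fin (m + 1) → ℝ,
      (if b = b₀ then ((∑ x, v (b₀, x) ^ 2) / (m + 1 : ℕ) - 1) ^ 2 else v (b, 0) ^ 2 / (m + 1 : ℕ))
      ∂gpi _ ≤ 2 / (m + 1 : ℕ) := by
  have hn : (0 : ℝ) < (m + 1 : ℕ) := by positivity
  by_cases hb : b = b₀
  · simp only [hb, if_true]
    have e : ∀ v : Fin r × Fin (m + 1) → ℝ, ((∑ x, v (b₀, x) ^ 2) / (m + 1 : ℕ) - 1) ^ 2 =
        ‖∑ i : Fin (m + 1), ((v (b₀, i) * v (b₀, i) - if b₀ = b₀ then 1 else 0 : ℝ) : ℂ) *
          ((((m + 1 : ℕ) : ℝ)⁻¹ : ℝ) : ℂ)‖ ^ 2 := by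
      intro v
      simp only [← Complex.ofReal_mul, ← Complex.ofReal_sum, Complex.norm_real, Real.norm_eq_abs,
        sq_abs, if_true]
      congr 1
      rw [← Finset.sum_mul, Finset.sum_sub_distrib, Finset.sum_const, Finset.card_univ,
        Fintype.card_fin, nsmul_eq_mul, mul_one, sub_mul, mul_inv_cancel₀ hn.ne', div_eq_mul_inv]
      simp only [sq]
    have h1 := gpi_bilin_integrable (n := m + 1) b₀ b₀
      (fun _ => ((((m + 1 : ℕ) : ℝ)⁻¹ : ℝ) : ℂ)) 2
    have h2 := gpi_bilin_sq_le (n := m + 1) b₀ b₀ (fun _ => ((((m + 1 : ℕ) : ℝ)⁻¹ : ℝ) : ℂ))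
    refine ⟨h1.congr (Eventually.of_forall fun v => (e v).symm),
      (integral_congr_ae (Eventually.of_forall e)).trans_le (h2.trans (le_of_eq ?_))⟩
    rw [Finset.sum_const, Finset.card_univ, Fintype.card_fin, nsmul_eq_mul, Complex.norm_real,
      Real.norm_eq_abs, sq_abs]
    field_simp
  · simp only [hb, if_false]
    obtain ⟨h1, h2⟩ := goe_sq_coord (I := Fin r × Fin (m + 1)) (b, 0)
    refine ⟨h1.div_const _, ?_⟩
    rw [integral_div, h2]
    gcongr
    norm_num

theorem goe_approx (b₀ : Fin r) {w : Fin k → ℂ} (hw : ∀ j, 0 < (w j).im)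
    {ψ : (Fin k → Jet r) → ℝ} (hc : Continuous ψ) (hs : HasCompactSupport ψ) :
    Tendsto (fun m : ℕ => EG (goeFam (m + 1)) r w ψ - AG m b₀ w ψ) atTop (𝓝 0) := by
  obtain ⟨C, hC⟩ := hc.bounded_above_of_compact_support hs
  simp only [Real.norm_eq_abs] at hC
  have hC0 : 0 ≤ C := (abs_nonneg _).trans (hC 0)
  rw [Metric.tendsto_nhds]
  intro ε hε
  obtain ⟨δ, hδ, hδ1, hU⟩ := goe_unif hc hs (ε := ε / 2) (by positivity)
  have ht : Tendsto (fun m : ℕ => (2 * C / (δ / 3) ^ 2 * (r * 2)) / (m + 1 : ℕ)) atTop (𝓝 0) :=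
    (tendsto_add_atTop_iff_nat (f := fun n : ℕ => (2 * C / (δ / 3) ^ 2 * (r * 2)) / n) 1).2
      (tendsto_const_div_atTop_nhds_zero_nat _)
  filter_upwards [ht.eventually (gt_mem_nhds (half_pos hε))] with m hm
  have hn : (0 : ℝ) < (m + 1 : ℕ) := by positivity
  have ht0 : 0 < Real.pi / (m + 1 : ℕ) := div_pos Real.pi_pos hn
  have hρ : (0 : ℝ) < √(m + 1 : ℕ) := Real.sqrt_pos.2 hn
  have cJ : ∀ {v : GOm (m + 1) r → Fin r × Fin (m + 1) → ℝ}, Continuous v →
      Continuous fun ω : GOm (m + 1) r =>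
        ψ (fun j => jetM (Real.pi / (m + 1 : ℕ)) (symG (gc (m + 1)) ω.1) (v ω) (w j)) :=
    fun hv => hc.comp (continuous_pi fun j => continuous_jetM ht0
      (fun a b => (continuous_symG _ a b).comp continuous_fst) (fun ω => symG_herm _ _) hv (hw j))
  rw [Real.dist_eq, sub_zero, EG_goe (Nat.succ_pos m) hw hc hC, AG_eq m b₀ hw hc,
    goe_align b₀ (cJ continuous_snd) (fun ω => hC _) (fun O hO ω => by
      simp only [symG_conjX, jetM_orth ht0 (symG_herm _ _) hO _ (hw _)])]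
  have hT : ∀ b, Integrable (fun ω : GOm (m + 1) r =>
      (if b = b₀ then ((∑ x, ω.2 (b₀, x) ^ 2) / (m + 1 : ℕ) - 1) ^ 2
        else ω.2 (b, 0) ^ 2 / (m + 1 : ℕ))) (GP (m + 1) r) := fun b =>
    measurePreserving_snd.integrable_comp_of_integrable (goe_tau b₀ b).1
  have hI : ∫ ω : GOm (m + 1) r, ∑ b, (if b = b₀ then ((∑ x, ω.2 (b₀, x) ^ 2) / (m + 1 : ℕ) - 1) ^ 2
        else ω.2 (b, 0) ^ 2 / (m + 1 : ℕ)) ∂GP (m + 1) r ≤ r * (2 / (m + 1 : ℕ)) := by
    rw [integral_finsetSum _ fun b _ => hT b]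
    refine (Finset.sum_le_card_nsmul _ _ (2 / (m + 1 : ℕ) : ℝ) fun b _ => ?_).trans (by simp)
    refine le_trans (le_of_eq ?_) (goe_tau (m := m) b₀ b).2
    refine goe_mp_integral measurePreserving_snd (F := fun v : Fin r × Fin (m + 1) → ℝ =>
      (if b = b₀ then ((∑ x, v (b₀, x) ^ 2) / (m + 1 : ℕ) - 1) ^ 2
        else v (b, 0) ^ 2 / (m + 1 : ℕ))) ?_
    split_ifs <;> fun_prop
  have key := goe_close (P := GP (m + 1) r)
    (cJ (continuous_setC b₀ (continuous_alg.comp (by fun_prop :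
      Continuous fun (ω : GOm (m + 1) r) x => ω.2 (b₀, x))) continuous_snd)).measurable
    (cJ ((continuous_chV √(m + 1 : ℕ) b₀).comp continuous_snd)).measurable
    (δ := δ / 3) (ε := ε / 2) (by positivity) (by positivity) (fun ω => hC _) (fun ω => hC _)
    (integrable_finsetSum Finset.univ fun b _ => hT b)
    (fun ω => Finset.sum_nonneg fun b _ => by split_ifs <;> positivity) (fun ω hω => by
      refine hU _ _ ((pi_norm_le_iff_of_nonneg (by positivity)).2 fun j => ?_)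
      have hτ : ∀ b, |if b = b₀ then √(∑ x, ω.2 (b₀, x) ^ 2) / √(m + 1 : ℕ) - 1
          else ω.2 (b, 0) / √(m + 1 : ℕ)| ≤ δ / 3 := by
        intro b
        have h1 := (Finset.single_le_sum (f := fun b => (if b = b₀ then
          ((∑ x, ω.2 (b₀, x) ^ 2) / (m + 1 : ℕ) - 1) ^ 2 else ω.2 (b, 0) ^ 2 / (m + 1 : ℕ) : ℝ))
          (fun b _ => by split_ifs <;> positivity) (Finset.mem_univ b)).trans hω.le
        refine abs_le_of_sq_le_sq' (le_trans ?_ h1) (by positivity) |> abs_le.2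
        by_cases hb : b = b₀
        · simp only [hb, if_true]
          have h2 : (∑ x, ω.2 (b₀, x) ^ 2) / (m + 1 : ℕ) =
              (√(∑ x, ω.2 (b₀, x) ^ 2) / √(m + 1 : ℕ)) ^ 2 := by
            rw [div_pow, Real.sq_sqrt (Finset.sum_nonneg fun _ _ => sq_nonneg _),
              Real.sq_sqrt hn.le]
          rw [h2]
          have h3 : 0 ≤ √(∑ x, ω.2 (b₀, x) ^ 2) / √(m + 1 : ℕ) := by positivity
          generalize √(∑ x, ω.2 (b₀, x) ^ 2) / √(m + 1 : ℕ) = a at h3 ⊢
          have : (a ^ 2 - 1) ^ 2 = (a - 1) ^ 2 * (a + 1) ^ 2 := by ring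
          rw [this]
          exact le_mul_of_one_le_right (sq_nonneg _) (by nlinarith)
        · simp only [hb, if_false]
          rw [div_pow, Real.sq_sqrt hn.le]
      refine (jetM_perturb _ _ _ _ b₀ _ (fun b i => ?_) (by positivity) (by linarith) hτ _).trans ?_
      · simp only [setC, chV, alg, Function.comp, if_true]
        by_cases hb : b = b₀ <;> by_cases hi : i = 0 <;> simp only [hb, hi, if_true, if_false]
        · field_simp; ring
        · ring
        · field_simp; ring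
        · ring
      · rw [show 3 * (δ / 3) = δ by ring]
        refine mul_le_mul_of_nonneg_left ?_ hδ.le
        exact (norm_le_pi_norm (fun j => jetM (Real.pi / (m + 1 : ℕ)) (symG (gc (m + 1)) ω.1)
          (chV √(m + 1 : ℕ) b₀ ω.2) (w j)) j).trans (le_add_of_nonneg_left zero_le_one))
  refine key.trans_lt ?_
  have h1 : 2 * C / (δ / 3) ^ 2 * (r * (2 / (m + 1 : ℕ))) =
      (2 * C / (δ / 3) ^ 2 * (r * 2)) / (m + 1 : ℕ) := by ring
  have h2 := mul_le_mul_of_nonneg_left hI (show 0 ≤ 2 * C / (δ / 3) ^ 2 by positivity)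
  linarith

end

end Crest.Agent.R166
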